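import Vale.Agent.P261.H36.Count
import Vale.Agent.P261.TopMain

/-! # P261 / H36 / CountTop : the homotopy groups of `L_{K(h)}(S/p)` are finite iff countable

In the sparse range, for every single degree `t`: the group `π_t (L (S/p))` is finite as soon as
it is countable (`top_finite_of_countable`), because it is the cohomology of the limit of the
tower `towerN p h w` in one degree, whose levels have finite cohomology. -/

open CategoryTheory MonoidalCategory Limits Pretriangulated MonObj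

set_option linter.unusedSectionVars false

universe v u v' u' w

namespace Vale.Agent.P251.S

open Vale.Agent.P251.T Vale.Agent.P261 Vale.Agent.P261.H36

namespace Couple

variable {C : Couple.{u, v}} {q : ℤ} {H : ℕ}

/-- **Countability of the cohomology from countability of `D^0_n`**, in the sparse range. -/
theorem cnt_of_countable (hsp : C.Sparse q H) {S : ℕ} (hS : C.Conv S) (hH : (H : ℤ) < q)
    {n : ℤ} [hf : Countable (C.D 0 n)] (s : ℕ) : CntMod (C.EZ s n) (C.EB s n) := by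
  by_cases h : s ≤ H ∧ q ∣ n + s
  · obtain ⟨hs, hn⟩ := h
    have h1 : CntMod (⊤ : AddSubgroup (C.D 0 n)) ⊥ :=
      CntMod.of_countable _ _ (Set.to_countable _)
    refine CntMod.of_rel (K' := ⊤) (H' := ⊥) (fun b x => ∃ y, C.j s n y = b ∧ C.pr n s y = x)
      h1 _ (CntMod.refl _) ?_ ?_
    · intro b hb
      obtain ⟨y, hy⟩ := exists_lift_of_sparse hsp hS hH hn hb
      exact ⟨_, AddSubgroup.mem_top _, y, hy, rfl⟩
    · rintro _ - _ - _ _ ⟨y₁, rfl, rfl⟩ ⟨y₂, rfl, rfl⟩ he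
      rw [← map_sub, AddSubgroup.mem_bot] at he
      rw [← map_sub]
      exact j_mem_EB_of_sparse hsp (by omega) hn _ he
  · exact (CntMod.refl (C.EB s n)).mono (hsp s n h) le_rfl

end Couple

variable {T : Type u} [Category.{v} T] [Preadditive T] [HasZeroObject T] [HasShift T ℤ]
  [∀ n : ℤ, (shiftFunctor T n).Additive] [Pretriangulated T] [MonoidalCategory T]
  [SymmetricCategory T] [TensorTriangulated T]
  {D : Type u'} [Category.{v'} D] [Preadditive D] [HasZeroObject D] [HasShift D ℤ]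
  [∀ n : ℤ, (shiftFunctor D n).Additive] [Pretriangulated D]

namespace UnitCof

variable {R : T} [MonObj R] {U : UnitCof R} {Y : T} {F : T ⥤ D} [F.CommShift ℤ]
  [F.IsTriangulated] {P : D}

/-- If the `E_2`-term is countable then the cohomology of the limit complex is. -/
theorem CobModel.cnt_of {w : ℤ} {Tw : TowerCx.{w}} (Φ : U.CobModel Y F P w Tw) {s : ℕ} {n : ℤ}
    (h : n + (s : ℤ) = 2 * w)
    (h1 : CntMod ((((U.tow Y).map F).couple P).EZ s n) ((((U.tow Y).map F).couple P).EB s n)) :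
    CntMod ((limCx Tw).Z s) ((limCx Tw).B s) := by
  refine CntMod.of_rel (fun x z => ∃ c, Φ.ψ s c = x ∧ U.qE Y F P h c = z) h1 _
    (CntMod.refl _) ?_ ?_
  · intro x hx
    obtain ⟨c, rfl⟩ := (Φ.ψ s).surjective x
    exact ⟨_, CobModel.qE_mem_EZ h c ((Φ.mem_Z_iff s c).1 hx), c, rfl, rfl⟩
  · rintro _ h₁ _ h₂ _ _ ⟨c₁, rfl, rfl⟩ ⟨c₂, rfl, rfl⟩ he
    rw [← map_sub] at he
    have h3 : Φ.ψ s c₁ - Φ.ψ s c₂ ∈ (limCx Tw).Z s := AddSubgroup.sub_mem _ h₁ h₂
    have h4 : Φ.ψ s c₁ - Φ.ψ s c₂ = Φ.ψ s (c₁ - c₂) := (map_sub (Φ.ψ s) c₁ c₂).symm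
    rw [h4] at h3 ⊢
    exact Φ.mem_B_of_qE h _ ((Φ.mem_Z_iff s _).1 h3) he

end UnitCof

end Vale.Agent.P251.S

namespace Vale.Agent.P261.H36

open Vale.Agent.P251.S Vale.Agent.P251.T Vale.Agent.P251.M Vale.Agent.P251.F Vale.Agent.P251
  Vale.Agent.P261

/-- **The cohomology of the limit of the tower `towerN p h w` is finite if it is countable.** -/
theorem fin_towerN_of_cnt {p h : ℕ} [hp : Fact p.Prime] (hp2 : p ≠ 2) (hh : h ≠ 0) (w : ℤ)
    (s : ℕ) (hc : CntMod ((limCx (I.towerN p h w)).Z s) ((limCx (I.towerN p h w)).B s)) :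
    (limCx (I.towerN p h w)).Fin s :=
  fin_lim_of_cnt _ (fun s j => towerN_r_surjective p h w s j) s
    (fun s j => H681.fin_lev hp2 hh w s j) hc

variable {T : Type u} [Category.{v} T] [Preadditive T] [HasZeroObject T]
    [HasShift T ℤ] [∀ n : ℤ, (shiftFunctor T n).Additive] [Pretriangulated T] [IsTriangulated T]
    [MonoidalCategory T] [SymmetricCategory T] [TensorTriangulated T] [MonoidalClosed T]
    [HasCoproducts.{0} T] [HasProducts.{0} T] [StableCat T]

variable (D : I.MUData T) {p h : ℕ} [hp : Fact p.Prime]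
  {C : T} {i : 𝟙_ T ⟶ C} {δ : C ⟶ (𝟙_ T)⟦(1 : ℤ)⟧}
  (Dk : KosData D.P (p : ℤ) h (D.vs p)) (F : LocFunctor Dk.K)

/-- **For every single degree: `π_t (L (S/p))` is finite if it is countable.** -/
theorem top_finite_of_countable (hp2 : p ≠ 2) (hh : 1 ≤ h)
    (hC : Triangle.mk ((p : ℤ) • 𝟙 (𝟙_ T)) i δ ∈ distTriang T) (hd : ¬ (p - 1) ∣ h)
    (hH : ((h * h : ℕ) : ℤ) < 2 * ((p : ℤ) - 1)) (t : ℤ)
    [hc : Countable ((𝟙_ T)⟦t⟧ ⟶ F.L.obj (𝟙_ T ⊗ C))] :
    Finite ((𝟙_ T)⟦t⟧ ⟶ F.L.obj (𝟙_ T ⊗ C)) := by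
  refine top_fin_of D Dk F hp2 hh hC hd t fun w s hw _ _ => ?_
  obtain ⟨U⟩ := exists_unitCof D.R
  have : Countable ((cpl D U C F).D 0 t) := (eD0 D U C F t).toEquiv.countable_iff.2 hc
  refine fin_towerN_of_cnt hp2 (by omega) w s ?_
  exact ((grOut D U hp2 hh hC Dk F).model _).cnt_of hw
    (Couple.cnt_of_countable (cpl_sparse D Dk F hp2 hh hC hd U)
      (cpl_conv D Dk F hp2 hh hC hd U) hH s)

end Vale.Agent.P261.H36
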