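import Vale.Agent.P261.H36.CofTel
import Vale.Agent.P251.M.BGlueD
import Vale.Agent.P251.S.CobarR

/-! # P261 / H36 / JCells : the cofibre of the unit of `MU` is a telescope of even complexes

* `MU_univ_cells`: the second main output of part M of P251 with `JCells`;
* `B_cells`: the objects `J ⊗ … ⊗ J` of the Adams tower are telescopes of finite even complexes.
-/

open CategoryTheory MonoidalCategory Limits Pretriangulated MonObj
open Vale.Agent.P251.G Vale.Agent.P251.G.LC Vale.Agent.P251.I Vale.Agent.P251.T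
open Vale.Agent.P251.F Vale.Agent.P251.S Vale.Agent.P251.M Vale.Agent.P261.H621

set_option linter.unusedSectionVars false

universe v u

noncomputable section

namespace Vale.Agent.P261.H36

variable {T : Type u} [Category.{v} T] [Preadditive T] [HasZeroObject T]
    [HasShift T ℤ] [∀ n : ℤ, (shiftFunctor T n).Additive] [Pretriangulated T] [IsTriangulated T]
    [MonoidalCategory T] [SymmetricCategory T] [TensorTriangulated T] [MonoidalClosed T]
    [HasCoproducts.{0} T] [HasProducts.{0} T] [StableCat T]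

/-- The cofibre of the unit of the monoid of a multiplicative sequence. -/
theorem jCells_of_seq (A : SeqMonoid T) {R : T} [MonObj R] {io : ∀ n, A.E.obj n ⟶ R}
    (tel : Vale.Agent.P251.M.IsTel A.E R io) (hu : ∀ n, CofIn (EvenCell T 1) (A.u n))
    (hη : η[R] = A.one ≫ io 0) (hconn : Conn (0 : ℤ) (𝟙_ T)) : JCells R := by
  intro J ρ δ hJ
  have h2 : BigCell T 2 J := bigCell_of_unit A tel hu _ hη J ρ δ hJ
  choose Y v w hd hY using hu
  obtain ⟨G, κ, h3, h4⟩ := exists_isTel_cofibre tel A.u (fun n => by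
    rw [SeqMonoid.u, SeqMonoid.u, Category.assoc, ← A.E.map_comp]
    rfl) (fun n => by rw [SeqMonoid.u, Category.assoc, tel.comp, hη]) v w hd hJ
    (fun f => h2.conn hconn (fun Y k f => StableCat.compact k Y f) 1 (by norm_num) f)
  exact ⟨G, κ, h3, fun n => by
    rw [h4 n]
    exact (hY n).mono (by norm_num)⟩

/-- The second main output of part M of P251, from a basis of `R ⊗ R`, with cells. -/
theorem exists_muUniv_cells (F : SpaceFunctor T) (e : F.S.obj CCF ≅ (stdEven T).L)
    (h : ∀ M : MUMon F (stdEven T) e, Nonempty (MUBasis M.V)) :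
    ∃ D : MUData T, MUUniv e D ∧ JCells D.R := by
  obtain ⟨M⟩ := nonempty_MUMon F (stdEven T) e
  obtain ⟨b⟩ := h M
  refine ⟨M.data b, M.muUniv b, ?_⟩
  exact jCells_of_seq (seqMU F (stdEven T) e) M.tel (evenSeq_MU F (stdEven T) e stdEven_sph).cof
    M.telMon.one.symm (unit_conn F)

/-- **The final output of part M of P251, with cells.** -/
theorem MU_univ_cells (F : SpaceFunctor T) (e : F.S.obj CCF ≅ (stdEven T).L) :
    ∃ D : MUData T, MUUniv e D ∧ JCells D.R :=
  exists_muUniv_cells F e fun M => M.nonempty_muBasis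

/-! ### the objects of the Adams tower -/

theorem evenTel_B {R : T} [MonObj R] (U : UnitCof R) (hJ : JCells R) (s : ℕ) :
    ∀ Y : T, EvenTel 0 Y → EvenTel 0 (U.cobar.B s Y) := by
  induction s with
  | zero => exact fun Y hY => hY
  | succ s ih =>
    intro Y hY
    refine ih _ ?_
    have h1 : EvenTel 0 U.J := hJ U.J U.ρ U.δ U.dist
    exact h1.tensor hY 0 (by norm_num)

/-- **The objects `J ⊗ … ⊗ J` of the Adams tower are telescopes of finite even complexes.** -/
theorem B_cells {R : T} [MonObj R] (U : UnitCof R) (hJ : JCells R) (s : ℕ) :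
    ∃ (F : ℕ ⥤ T) (κ : ∀ j, F.obj j ⟶ U.cobar.B s (𝟙_ T)),
      Vale.Agent.P251.M.IsTel F (U.cobar.B s (𝟙_ T)) κ ∧ ∀ j, EvenCell T 0 (F.obj j) :=
  evenTel_B U hJ s (𝟙_ T) (EvenTel.of_evenCell EvenCell.unit)

end Vale.Agent.P261.H36

end
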