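import Vale.Agent.P261.H36.Descent
import Vale.Agent.P251.F.Vanish

/-!
# P261: finiteness of the cohomology of the cobar complexes `Cob (NN p h (j+1))`

`TTower.sepFin_cob`: if `H^{s+1}(G; Prim (T j) w)` is finite then so is `H^{s+1}(NN p h (j+1))_w`.
`TTower.finite_H0`: if `Prim (T j) w` is finite then so is `H^0(NN p h (j+1))_w`.
-/

namespace Vale.Agent.P261.H36

open Vale.Agent.P251.C Vale.Agent.P251.F Vale.Agent.P251.F.LawRing Vale.Agent.P251

section Weight

variable {G : Type*} [Group G] [TopologicalSpace G] [IsTopologicalGroup G] [CompactSpace G]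
variable {T : Type} [CommRing T] [LawRing T] [MulSemiringAction G T] [LawAction G T]

/-- Descent of finiteness for framed law rings. -/
theorem sepFin_weight [DiscMod G T] [Framed T] (hT : ∀ a, HZero G T (a + 1)) (w : ℤ) (s : ℕ)
    (hM : HFin G (Prim T w) (s + 1)) :
    SepFin (fun z : Cob T (s + 1) => (∀ γ : G, γ • z = z) ∧ Cob.IsWt w z ∧ Cob.d (s + 1) z = 0)
      (fun z => ∃ y : Cob T s, (∀ γ : G, γ • y = y) ∧ Cob.IsWt w y ∧ Cob.d s y = z) := by
  classical
  have key := descent_fin (G := G) (A := fun b => Cob.wt T b w) (fun b => wtD G T b w)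
    (fun b x => Subtype.ext (Cob.d_d x.1))
    (fun b x hx => ⟨⟨Cob.ctr T b x.1, Cob.IsWt.ctr x.2⟩,
      Subtype.ext (Cob.exact_of_framed (congrArg Subtype.val hx))⟩)
    (fun a b => hzero_wt (hT a) w) s
    (by
      let P : Prim T w →+[G] Cob.wt T 0 w :=
        { toFun := fun x => x.1
          map_smul' := fun _ _ => rfl
          map_zero' := rfl
          map_add' := fun _ _ => rfl }
      refine (hFin_iff_sepFin.1 hM).of_rel (fun c c' => ∀ x, (c' x).1 = c x) ?_ ?_
      · rintro c ⟨hc, hdc, hd⟩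
        obtain ⟨c', hc', hcc'⟩ := IsCoch.of_inj P Subtype.val_injective hc
          (fun x => ⟨⟨c x, congrArg Subtype.val (hd x)⟩, rfl⟩)
        refine ⟨c', ⟨hc', ?_⟩, hcc'⟩
        funext x
        apply Subtype.val_injective
        have h1 := congrFun (dd_mapG P c') x
        rw [show (fun x => P (c' x)) = c from funext hcc', hdc] at h1
        exact h1.symm
      · rintro c c' b b' - - hb hb' ⟨Y, hY, hdY⟩
        refine ⟨fun x => (Y x).1, ⟨hY.lc.comp Subtype.val, fun g x => ?_⟩, fun x => ?_, ?_⟩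
        · exact congrArg Subtype.val (hY.equi g x)
        · exact Subtype.ext (Y x).2
        · funext x
          let Q : Prim T w →+ Cob.wt T 0 w := (Prim T w).subtype
          have h1 := congrFun (dd_map Q Y) x
          refine Eq.trans h1 ?_
          change (dd Y x).1 = _
          rw [hdY, Pi.sub_apply, Pi.sub_apply, ← hb x, ← hb' x]
          rfl)
  refine key.comap (fun z => if hz : Cob.IsWt w z then ⟨z, hz⟩ else 0) ?_ ?_
  · rintro z ⟨hz, hw, hdz⟩
    rw [dif_pos hw]
    exact ⟨fun γ => Subtype.ext (hz γ), Subtype.ext hdz⟩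
  · rintro z z' ⟨hz, hw, hdz⟩ ⟨hz', hw', hdz'⟩ ⟨y, hy, hdy⟩
    rw [dif_pos hw, dif_pos hw'] at hdy
    exact ⟨y.1, fun γ => congrArg Subtype.val (hy γ), y.2, congrArg Subtype.val hdy⟩

end Weight

section Main

variable {G : Type*} [Group G] [TopologicalSpace G] [IsTopologicalGroup G] [CompactSpace G]
variable {T N I : Type} [CommRing T] [LawRing T] [MulSemiringAction G T] [LawAction G T]
  [CommRing N] [LawRing N] [Fintype I]

/-- Descent of finiteness for `N → T`. -/
theorem sepFin_N [DiscMod G T] [Framed T] (hT : ∀ a, HZero G T (a + 1))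
    {ι : N →+* T} (hι : IsLawHom ι) {b : I → T} {i₀ : I} (hb : InvBasis G ι b i₀)
    (w : ℤ) (s : ℕ) (hM : HFin G (Prim T w) (s + 1)) :
    SepFin (fun z : Cob N (s + 1) => Cob.IsWt w z ∧ Cob.d (s + 1) z = 0)
      (fun z => ∃ y : Cob N s, Cob.IsWt w y ∧ Cob.d s y = z) := by
  classical
  refine (sepFin_weight hT w s hM).comap (Cob.mapRing ι (s + 1)) ?_ ?_
  · rintro z ⟨hw, hdz⟩
    exact ⟨hb.fix_cob z, Cob.IsWt.mapRing hι hw, by rw [← Cob.mapRing_d hι, hdz, map_zero]⟩
  · rintro z z' ⟨hw, hdz⟩ ⟨hw', hdz'⟩ ⟨y, hy, -, hdy⟩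
    rw [← map_sub] at hdy
    have hw'' : Cob.IsWt w (z - z') := (Cob.wt N (s + 1) w).sub_mem hw hw'
    generalize z - z' = u at hdy hw''
    obtain ⟨c, rfl⟩ := hb.exist_cob y hy
    have h1 : Cob.d s (∑ i, MvPolynomial.C (b i) * Cob.mapRing ι s (c i)) =
        ∑ i, MvPolynomial.C (b i) * Cob.mapRing ι (s + 1) (Cob.d s (c i)) := by
      rw [map_sum]
      refine Finset.sum_congr rfl fun i _ => ?_
      rw [Cob.d_const_mul (fun B _ g x => hb.const B g x i), Cob.mapRing_d hι]
    have h2 : Cob.mapRing ι (s + 1) u =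
        ∑ i, MvPolynomial.C (b i) * Cob.mapRing ι (s + 1) (if i = i₀ then u else 0) := by
      rw [Finset.sum_eq_single i₀]
      · rw [if_pos rfl, hb.one, MvPolynomial.C_1, one_mul]
      · intro i _ hi
        rw [if_neg hi, map_zero, mul_zero]
      · intro hi
        exact absurd (Finset.mem_univ i₀) hi
    rw [h1, h2] at hdy
    have h3 := congrFun (hb.uniq_cob _ _ hdy) i₀
    rw [if_pos rfl] at h3
    refine ⟨Cob.pr N s w (c i₀), Cob.isWt_pr w _, ?_⟩
    rw [← Cob.pr_d, h3, Cob.pr_eq_self hw'']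

omit [TopologicalSpace G] [IsTopologicalGroup G] [CompactSpace G] [LawAction G T] [LawRing N] in
/-- `N → T` is injective on cochains. -/
theorem mapRing_inj {ι : N →+* T} {b : I → T} {i₀ : I} (hb : InvBasis G ι b i₀) (n : ℕ) :
    Function.Injective (Cob.mapRing ι n) := by
  classical
  intro z z' h
  have h2 : ∀ u : Cob N n, Cob.mapRing ι n u =
      ∑ i, MvPolynomial.C (b i) * Cob.mapRing ι n (if i = i₀ then u else 0) := by
    intro u
    rw [Finset.sum_eq_single i₀]
    · rw [if_pos rfl, hb.one, MvPolynomial.C_1, one_mul]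
    · intro i _ hi
      rw [if_neg hi, map_zero, mul_zero]
    · intro hi
      exact absurd (Finset.mem_univ i₀) hi
  rw [h2 z, h2 z'] at h
  have h3 := congrFun (hb.uniq_cob _ _ h) i₀
  rwa [if_pos rfl, if_pos rfl] at h3

omit [TopologicalSpace G] [IsTopologicalGroup G] [CompactSpace G] [LawAction G T] in
/-- `H^0(N)_w` embeds in `Prim T w`. -/
theorem finite_H0_N {ι : N →+* T} (hι : IsLawHom ι) {b : I → T} {i₀ : I} (hb : InvBasis G ι b i₀)
    (w : ℤ) [hM : Finite (Prim T w)] :
    {z : Cob N 0 | Cob.IsWt w z ∧ Cob.d 0 z = 0}.Finite := by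
  let f : {z : Cob N 0 | Cob.IsWt w z ∧ Cob.d 0 z = 0} → Prim T w := fun z =>
    ⟨⟨Cob.mapRing ι 0 z.1, Cob.IsWt.mapRing hι z.2.1⟩, by
      change Cob.d 0 (Cob.mapRing ι 0 z.1) = 0
      rw [← Cob.mapRing_d hι, z.2.2, map_zero]⟩
  have : Finite {z : Cob N 0 | Cob.IsWt w z ∧ Cob.d 0 z = 0} :=
    Finite.of_injective f fun z z' h =>
      Subtype.ext (mapRing_inj hb 0 (congrArg (fun x => x.1.1) h))
  exact Set.toFinite _

end Main

/-- Finiteness of the cohomology in degree `s` and weight `w` of the cobar complex of a law ring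
(`s = 0`: of the primitive elements). -/
def CobFin (N : Type) [CommRing N] [LawRing N] (w : ℤ) : ℕ → Prop
  | 0 => {z : Cob N 0 | Cob.IsWt w z ∧ Cob.d 0 z = 0}.Finite
  | s + 1 => SepFin (fun z : Cob N (s + 1) => Cob.IsWt w z ∧ Cob.d (s + 1) z = 0)
      (fun z => ∃ y : Cob N s, Cob.IsWt w y ∧ Cob.d s y = z)

namespace TT

variable {p h : ℕ} [Fact p.Prime] {G : Type} [Group G] [TopologicalSpace G]
  [IsTopologicalGroup G] [CompactSpace G] (X : TTower p h G)

/-- **Finiteness of the cohomology of `NN p h (j+1)`.** -/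
theorem cobFin (j : ℕ) (w : ℤ) (s : ℕ) (h0 : Finite (X.M w j))
    (hM : 1 ≤ s → HFin G (X.M w j) s) : CobFin (NN p h (j + 1)) w s := by
  cases s with
  | zero => exact finite_H0_N (X.ι_law j) (X.inv j) w
  | succ s => exact sepFin_N (X.hzero j) (X.ι_law j) (X.inv j) w s (hM (by omega))

end TT

end Vale.Agent.P261.H36
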