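import Vale.Agent.P261.H621.Defs
import Vale.Agent.P251.M.TelPi
import Vale.Agent.P251.M.CofIn

/-! # P261 / H36 / CofTel : the cofibre of the unit of a telescope is a telescope

If `R` is the telescope of `F 0 ⟶ F 1 ⟶ …` with compatible units `u n : 𝟙 ⟶ F n`, and if the
cofibre `J` of `𝟙 ⟶ R` has `Hom(𝟙⟦1⟧, J) = 0`, then `J` is the telescope of the cofibres of the
maps `u n`. -/

open CategoryTheory MonoidalCategory Limits Pretriangulated MonObj

set_option linter.unusedSectionVars false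

universe v u

noncomputable section

namespace Vale.Agent.P261.H36

open Vale.Agent.P251 Vale.Agent.P251.T Vale.Agent.P251.M

section Seq

variable {C : Type u} [Category.{v} C]

/-- naturality along all maps of a sequence from naturality along the steps -/
theorem seq_nat {F G : ℕ ⥤ C} (a : ∀ n, F.obj n ⟶ G.obj n)
    (ha : ∀ n, F.map (homOfLE (Nat.le_succ n)) ≫ a (n + 1) =
      a n ≫ G.map (homOfLE (Nat.le_succ n))) {n m : ℕ} (h : n ≤ m) :
    F.map (homOfLE h) ≫ a m = a n ≫ G.map (homOfLE h) := by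
  induction m, h using Nat.le_induction with
  | base =>
    have : homOfLE (le_refl n) = 𝟙 n := rfl
    rw [this, F.map_id, G.map_id, Category.id_comp, Category.comp_id]
  | succ m h ih =>
    have : homOfLE (Nat.le_succ_of_le h) = homOfLE h ≫ homOfLE (Nat.le_succ m) := rfl
    rw [this, F.map_comp, Category.assoc, ha, ← Category.assoc, ih, Category.assoc, G.map_comp]

/-- compatibility of a cocone with all maps from the compatibility with the steps -/
theorem seq_comp {G : ℕ ⥤ C} {J : C} (c : ∀ n, G.obj n ⟶ J)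
    (hc : ∀ n, G.map (homOfLE (Nat.le_succ n)) ≫ c (n + 1) = c n) {n m : ℕ} (h : n ≤ m) :
    G.map (homOfLE h) ≫ c m = c n := by
  induction m, h using Nat.le_induction with
  | base =>
    have : homOfLE (le_refl n) = 𝟙 n := rfl
    rw [this, G.map_id, Category.id_comp]
  | succ m h ih =>
    have : homOfLE (Nat.le_succ_of_le h) = homOfLE h ≫ homOfLE (Nat.le_succ m) := rfl
    rw [this, G.map_comp, Category.assoc, hc, ih]

end Seq

variable {T : Type u} [Category.{v} T] [Preadditive T] [HasZeroObject T]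
    [HasShift T ℤ] [∀ n : ℤ, (shiftFunctor T n).Additive] [Pretriangulated T] [IsTriangulated T]
    [MonoidalCategory T] [SymmetricCategory T] [TensorTriangulated T] [MonoidalClosed T]
    [HasCoproducts.{0} T] [HasProducts.{0} T] [StableCat T]

theorem isTel_cofibre_aux {F G : ℕ ⥤ T} {R : T} {ι : ∀ n, F.obj n ⟶ R} (tel : IsTel F R ι)
    (u : ∀ n, 𝟙_ T ⟶ F.obj n) (hu : ∀ n, u n ≫ F.map (homOfLE (Nat.le_succ n)) = u (n + 1))
    {o : 𝟙_ T ⟶ R} (ho : ∀ n, u n ≫ ι n = o) (v : ∀ n, F.obj n ⟶ G.obj n)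
    (w : ∀ n, G.obj n ⟶ (𝟙_ T)⟦(1 : ℤ)⟧)
    (hd : ∀ n, Triangle.mk (u n) (v n) (w n) ∈ distTriang T)
    {J : T} {ρ : R ⟶ J} {δ : J ⟶ (𝟙_ T)⟦(1 : ℤ)⟧} (hJ : Triangle.mk o ρ δ ∈ distTriang T)
    (c : ∀ n, G.obj n ⟶ J) (hc1 : ∀ n, v n ≫ c n = ι n ≫ ρ) (hc2 : ∀ n, w n = c n ≫ δ)
    (hv' : ∀ n, F.map (homOfLE (Nat.le_succ n)) ≫ v (n + 1) =
      v n ≫ G.map (homOfLE (Nat.le_succ n)))
    (hGc : ∀ n, G.map (homOfLE (Nat.le_succ n)) ≫ c (n + 1) = c n) : IsTel G J c := by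
  have hv : ∀ {n m : ℕ} (h : n ≤ m), F.map (homOfLE h) ≫ v m = v n ≫ G.map (homOfLE h) :=
    fun h => seq_nat v hv' h
  have hGc' : ∀ {n m : ℕ} (h : n ≤ m), G.map (homOfLE h) ≫ c m = c n := fun h =>
    seq_comp (G := G) c hGc h
  have huv : ∀ n, u n ≫ v n = 0 := fun n => dist_zero₁₂ (hd n)
  refine IsTel.of_pi hGc ?_ ?_
  · -- injectivity
    intro k n x hx
    have h2 : x ≫ w n = 0 := by rw [hc2, ← Category.assoc, hx, zero_comp]
    obtain ⟨y, hy⟩ := dist_co₃ (hd n) x h2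
    have h3 : (y ≫ ι n) ≫ ρ = 0 := by rw [Category.assoc, ← hc1, ← Category.assoc, ← hy, hx]
    obtain ⟨z, hz⟩ := dist_co₂ hJ _ h3
    have h4 : (y - z ≫ u n) ≫ ι n = 0 := by
      rw [Preadditive.sub_comp, Category.assoc, ho, hz, sub_self]
    obtain ⟨m, hm, h5⟩ := tel.exists_comp_eq_zero (isCpt_sph k) _ h4
    refine ⟨m, hm, ?_⟩
    have h6 : x = (y - z ≫ u n) ≫ v n := by
      rw [Preadditive.sub_comp, Category.assoc, huv, comp_zero, sub_zero, hy]
    rw [h6, Category.assoc, ← hv hm, ← Category.assoc, h5, zero_comp]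
  · -- surjectivity
    intro k x
    obtain ⟨z, hz⟩ := (shiftFunctor T (1 : ℤ)).map_surjective ((sphShift T k).hom ≫ x ≫ δ)
    have h2 : (z ≫ u 0) ≫ ι 0 = 0 := by
      rw [Category.assoc, ho]
      apply (shiftFunctor T (1 : ℤ)).map_injective
      rw [Functor.map_comp, hz, Category.assoc, Category.assoc, dist_zero₃₁ hJ, comp_zero,
        comp_zero, Functor.map_zero]
    obtain ⟨m, hm, h3⟩ := tel.exists_comp_eq_zero (isCpt_sph (k - 1)) _ h2
    have hum : ∀ m, u 0 ≫ F.map (homOfLE (Nat.zero_le m)) = u m := by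
      intro m
      induction m with
      | zero =>
        have : homOfLE (Nat.zero_le 0) = 𝟙 0 := rfl
        rw [this, F.map_id, Category.comp_id]
      | succ m ih =>
        have : homOfLE (Nat.zero_le (m + 1)) =
          homOfLE (Nat.zero_le m) ≫ homOfLE (Nat.le_succ m) := rfl
        rw [this, F.map_comp, ← Category.assoc, ih, hu]
    have h4 : z ≫ u m = 0 := by rw [← hum m, ← Category.assoc, h3]
    have h5 : (x ≫ δ) ≫ (u m)⟦(1 : ℤ)⟧' = 0 := by
      rw [← cancel_epi (sphShift T k).hom, comp_zero, ← Category.assoc, ← hz,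
        ← Functor.map_comp, h4, Functor.map_zero]
    obtain ⟨y, hy⟩ := dist_co₁ (hd m) (x ≫ δ) h5
    have h6 : (x - y ≫ c m) ≫ δ = 0 := by
      rw [Preadditive.sub_comp, Category.assoc, ← hc2, hy, sub_self]
    obtain ⟨r, hr⟩ := dist_co₃ hJ _ h6
    obtain ⟨l, r', hr'⟩ := tel.exists_factor' (isCpt_sph k) r
    refine ⟨max m l, y ≫ G.map (homOfLE (le_max_left m l)) +
      (r' ≫ F.map (homOfLE (le_max_right m l))) ≫ v (max m l), ?_⟩
    have h7 : ((r' ≫ F.map (homOfLE (le_max_right m l))) ≫ v (max m l)) ≫ c (max m l) =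
        r ≫ ρ := by
      rw [Category.assoc, hc1, Category.assoc, ← Category.assoc (F.map _), tel.comp,
        ← Category.assoc, hr']
    rw [Preadditive.add_comp, Category.assoc, hGc', h7, ← hr]
    abel

/-- **The cofibre of the unit of a telescope is the telescope of the cofibres.** -/
theorem exists_isTel_cofibre {F : ℕ ⥤ T} {R : T} {ι : ∀ n, F.obj n ⟶ R} (tel : IsTel F R ι)
    (u : ∀ n, 𝟙_ T ⟶ F.obj n) (hu : ∀ n, u n ≫ F.map (homOfLE (Nat.le_succ n)) = u (n + 1))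
    {o : 𝟙_ T ⟶ R} (ho : ∀ n, u n ≫ ι n = o) {Y : ℕ → T} (v : ∀ n, F.obj n ⟶ Y n)
    (w : ∀ n, Y n ⟶ (𝟙_ T)⟦(1 : ℤ)⟧)
    (hd : ∀ n, Triangle.mk (u n) (v n) (w n) ∈ distTriang T)
    {J : T} {ρ : R ⟶ J} {δ : J ⟶ (𝟙_ T)⟦(1 : ℤ)⟧} (hJ : Triangle.mk o ρ δ ∈ distTriang T)
    (h1 : ∀ f : (𝟙_ T)⟦(1 : ℤ)⟧ ⟶ J, f = 0) :
    ∃ (G : ℕ ⥤ T) (κ : ∀ n, G.obj n ⟶ J), IsTel G J κ ∧ ∀ n, G.obj n = Y n := by
  -- the fill-ins
  have hc : ∀ n, ∃ c : Y n ⟶ J, v n ≫ c = ι n ≫ ρ ∧ w n = c ≫ δ := by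
    intro n
    obtain ⟨c, h2, h3⟩ := complete_distinguished_triangle_morphism _ _ (hd n) hJ
      (𝟙 _) (ι n) ((ho n).trans (Category.id_comp o).symm)
    refine ⟨c, h2, ?_⟩
    have h4 : w n ≫ (𝟙 (𝟙_ T))⟦(1 : ℤ)⟧' = c ≫ δ := h3
    rwa [CategoryTheory.Functor.map_id, Category.comp_id] at h4
  have hg : ∀ n, ∃ g : Y n ⟶ Y (n + 1), v n ≫ g = F.map (homOfLE (Nat.le_succ n)) ≫ v (n + 1) ∧
      w n = g ≫ w (n + 1) := by
    intro n
    obtain ⟨g, h2, h3⟩ := complete_distinguished_triangle_morphism _ _ (hd n) (hd (n + 1))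
      (𝟙 _) (F.map (homOfLE (Nat.le_succ n))) ((hu n).trans (Category.id_comp (u (n + 1))).symm)
    refine ⟨g, h2, ?_⟩
    have h4 : w n ≫ (𝟙 (𝟙_ T))⟦(1 : ℤ)⟧' = g ≫ w (n + 1) := h3
    rwa [CategoryTheory.Functor.map_id, Category.comp_id] at h4
  choose c hc1 hc2 using hc
  choose g hg1 hg2 using hg
  have hgc : ∀ n, g n ≫ c (n + 1) = c n := by
    intro n
    rw [← sub_eq_zero]
    obtain ⟨z, hz⟩ := dist_yo₃ (hd n) (g n ≫ c (n + 1) - c n) (by
      rw [Preadditive.comp_sub, ← Category.assoc, hg1, Category.assoc, hc1, ← Category.assoc,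
        tel.comp_succ, hc1, sub_self])
    rw [hz, h1 z, comp_zero]
  have hG : ∀ n, (Functor.ofSequence g).map (homOfLE (Nat.le_succ n)) = g n := fun n =>
    Functor.ofSequence_map_homOfLE_succ g n
  refine ⟨Functor.ofSequence g, c, isTel_cofibre_aux (G := Functor.ofSequence g) tel u hu ho
    v w hd hJ c hc1 hc2 (fun n => ?_) (fun n => ?_), fun n => rfl⟩
  · exact (hg1 n).symm.trans (congrArg (fun x => v n ≫ x) (hG n).symm)
  · exact (congrArg (fun x => x ≫ c (n + 1)) (hG n)).trans (hgc n)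

/-! ### powers -/

/-- A class of objects closed under isomorphisms: telescopes of even complexes. -/
def EvenTel (d : ℤ) (X : T) : Prop :=
  ∃ (F : ℕ ⥤ T) (κ : ∀ n, F.obj n ⟶ X), IsTel F X κ ∧ ∀ n, EvenCell T d (F.obj n)

theorem EvenTel.of_iso {d : ℤ} {X X' : T} (e : X ≅ X') (h : EvenTel d X) : EvenTel d X' := by
  obtain ⟨F, κ, hF, hc⟩ := h
  exact ⟨F, fun n => κ n ≫ e.hom, hF.of_iso (Iso.refl _) e (fun n => by simp), hc⟩

theorem EvenTel.tensor {d d' : ℤ} {X Y : T} (hX : EvenTel d X) (hY : EvenTel d' Y) (p : ℤ)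
    (h : d + d' = p) : EvenTel p (X ⊗ Y) := by
  obtain ⟨F, κ, hF, hc⟩ := hX
  obtain ⟨F', κ', hF', hc'⟩ := hY
  exact ⟨tensSeq F F', _, hF.tensor hF', fun n => (hc n).tensor (hc' n) p h⟩

/-- `X` is the telescope of the constant sequence. -/
theorem isTel_constFun (X : T) : IsTel ((Functor.const ℕ).obj X) X (fun _ => 𝟙 X) :=
  IsTel.of_pi (fun _ => Category.id_comp _)
    (fun k n w hw => ⟨n, le_rfl, by
      have h1 : w = 0 := (Category.comp_id w).symm.trans hw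
      rw [h1, zero_comp]⟩)
    (fun k w => ⟨0, w, Category.comp_id _⟩)

theorem EvenTel.of_evenCell {d : ℤ} {X : T} (hX : EvenCell T d X) : EvenTel d X :=
  ⟨_, _, isTel_constFun X, fun _ => hX⟩

end Vale.Agent.P261.H36

end
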