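import Vale.Agent.P261.ML
import Mathlib.Data.Set.Countable
import Mathlib.Algebra.BigOperators.Group.Finset.Basic

/-! # P261 / H36 / Count : countable cohomology of a tower with finite levels is finite

`CntMod K H`: the image of the subgroup `K` in `G / H` is countable. If `Z / B` is the limit of
its finite quotients `Z / (Z ∩ U j)` then it is finite as soon as it is countable. Application to
the limit of a tower of complexes with surjective transition maps and finite cohomology at all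
levels: `H^s(lim)` is finite if and only if it is countable. -/

universe u

namespace Vale.Agent.P261.H36

open Vale.Agent.P251.S Vale.Agent.P261

section

variable {G G' : Type*} [AddCommGroup G] [AddCommGroup G']

/-- The image of `K` in `G / H` is countable. -/
def CntMod (K H : AddSubgroup G) : Prop :=
  ∃ S : Set G, S.Countable ∧ ∀ x ∈ K, ∃ s ∈ S, x - s ∈ H

theorem CntMod.mono {K K' H H' : AddSubgroup G} (h : CntMod K H) (hK : K' ≤ K) (hH : H ≤ H') :
    CntMod K' H' := by
  obtain ⟨S, hS, h⟩ := h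
  refine ⟨S, hS, fun x hx => ?_⟩
  obtain ⟨s, hs, hx'⟩ := h x (hK hx)
  exact ⟨s, hs, hH hx'⟩

theorem _root_.Vale.Agent.P261.FinMod.cntMod {K H : AddSubgroup G} (h : FinMod K H) :
    CntMod K H := by
  obtain ⟨S, hS, h⟩ := h
  exact ⟨S, hS.countable, h⟩

theorem CntMod.of_countable (K H : AddSubgroup G) (h : (K : Set G).Countable) : CntMod K H :=
  ⟨K, h, fun x hx => ⟨x, hx, by rw [sub_self]; exact H.zero_mem⟩⟩

theorem CntMod.refl (K : AddSubgroup G) : CntMod K K :=
  ⟨{0}, Set.countable_singleton 0, fun x hx => ⟨0, rfl, by rwa [sub_zero]⟩⟩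

/-- Representatives may be chosen in `K`. -/
theorem CntMod.exists_subset {K H : AddSubgroup G} (h : CntMod K H) :
    ∃ S : Set G, S.Countable ∧ S ⊆ K ∧ ∀ x ∈ K, ∃ s ∈ S, x - s ∈ H := by
  classical
  obtain ⟨S, hS, h⟩ := h
  let f : G → G := fun s => if hs : ∃ x ∈ K, x - s ∈ H then hs.choose else 0
  have hf : ∀ s, f s ∈ K := by
    intro s
    by_cases hs : ∃ x ∈ K, x - s ∈ H
    · simp only [f, dif_pos hs]
      exact hs.choose_spec.1
    · simp only [f, dif_neg hs]
      exact K.zero_mem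
  refine ⟨f '' S, hS.image f, ?_, fun x hx => ?_⟩
  · rintro _ ⟨s, -, rfl⟩
    exact hf s
  · obtain ⟨s, hs, hxs⟩ := h x hx
    have hs' : ∃ x ∈ K, x - s ∈ H := ⟨x, hx, hxs⟩
    refine ⟨f s, ⟨s, hs, rfl⟩, ?_⟩
    have h1 : f s - s ∈ H := by
      simp only [f, dif_pos hs']
      exact hs'.choose_spec.2
    have h2 := H.sub_mem hxs h1
    rwa [sub_sub_sub_cancel_right] at h2

theorem CntMod.trans {K H L : AddSubgroup G} (h : CntMod K H) (h' : CntMod H L) :
    CntMod K L := by
  obtain ⟨S, hS, h⟩ := h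
  obtain ⟨S', hS', h'⟩ := h'
  refine ⟨Set.image2 (· + ·) S S', hS.image2 hS' _, fun x hx => ?_⟩
  obtain ⟨s, hs, hxs⟩ := h x hx
  obtain ⟨s', hs', hxs'⟩ := h' _ hxs
  exact ⟨s + s', ⟨s, hs, s', hs', rfl⟩, by rwa [← sub_sub]⟩

theorem CntMod.map {K H : AddSubgroup G} (h : CntMod K H) (f : G →+ G') :
    CntMod (K.map f) (H.map f) := by
  obtain ⟨S, hS, h⟩ := h
  refine ⟨f '' S, hS.image f, ?_⟩
  rintro _ ⟨x, hx, rfl⟩
  obtain ⟨s, hs, hxs⟩ := h x hx
  exact ⟨f s, ⟨s, hs, rfl⟩, ⟨_, hxs, map_sub f x s⟩⟩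

theorem CntMod.comap {K H : AddSubgroup G'} (h : CntMod K H) (f : G →+ G') :
    CntMod (K.comap f) (H.comap f) := by
  classical
  obtain ⟨S, hS, h⟩ := h
  let g : G' → G := fun s => if hs : ∃ x : G, f x - s ∈ H then hs.choose else 0
  refine ⟨g '' S, hS.image g, fun x hx => ?_⟩
  obtain ⟨s, hs, hxs⟩ := h (f x) hx
  have hs' : ∃ x : G, f x - s ∈ H := ⟨x, hxs⟩
  refine ⟨g s, ⟨s, hs, rfl⟩, ?_⟩
  have h1 : f (g s) - s ∈ H := by
    simp only [g, dif_pos hs']
    exact hs'.choose_spec
  have h2 := H.sub_mem hxs h1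
  rw [sub_sub_sub_cancel_right, ← map_sub] at h2
  exact h2

theorem CntMod.countable_bot {K : AddSubgroup G} (h : CntMod K ⊥) : (K : Set G).Countable := by
  obtain ⟨S, hS, h⟩ := h
  refine hS.mono fun x hx => ?_
  obtain ⟨s, hs, hxs⟩ := h x hx
  rw [AddSubgroup.mem_bot, sub_eq_zero] at hxs
  rwa [hxs]

/-- `K / H` is countable if there is a relation between `K` and `K'`, compatible with differences,
such that the fibres are countable modulo `H`. -/
theorem CntMod.of_rel {K H : AddSubgroup G} {K' H' : AddSubgroup G'}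
    (R : G → G' → Prop) (h' : CntMod K' H') (L : AddSubgroup G) (hL : CntMod L H)
    (hex : ∀ x ∈ K, ∃ y ∈ K', R x y)
    (hR : ∀ x₁ ∈ K, ∀ x₂ ∈ K, ∀ y₁ y₂, R x₁ y₁ → R x₂ y₂ → y₁ - y₂ ∈ H' → x₁ - x₂ ∈ L) :
    CntMod K H := by
  classical
  have key : CntMod K L := by
    obtain ⟨S, hS, h⟩ := h'
    let P : G' → G → Prop := fun s x => x ∈ K ∧ ∃ y, R x y ∧ y - s ∈ H'
    let g : G' → G := fun s => if hs : ∃ x, P s x then hs.choose else 0
    refine ⟨g '' S, hS.image g, fun x hx => ?_⟩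
    obtain ⟨y, hy, hxy⟩ := hex x hx
    obtain ⟨s, hs, hys⟩ := h y hy
    have hs' : ∃ x, P s x := ⟨x, hx, y, hxy, hys⟩
    refine ⟨g s, ⟨s, hs, rfl⟩, ?_⟩
    have h1 : P s (g s) := by
      simp only [g, dif_pos hs']
      exact hs'.choose_spec
    obtain ⟨hg, y₂, hy₂, hys₂⟩ := h1
    refine hR x hx _ hg y y₂ hxy hy₂ ?_
    have h2 := H'.sub_mem hys hys₂
    rwa [sub_sub_sub_cancel_right] at h2
  exact key.trans hL

/-- **Baire for profinite groups**: a complete filtered group with finite quotients is finite as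
soon as it is countable. -/
theorem finMod_of_cntMod {Z B : AddSubgroup G} (U : ℕ → AddSubgroup G) (hUB : ∀ j, B ≤ U j)
    (hanti : ∀ j, U (j + 1) ≤ U j) (hfin : ∀ j, FinMod Z (U j))
    (hsep : ∀ z ∈ Z, (∀ j, z ∈ U j) → z ∈ B)
    (hcomp : ∀ z : ℕ → G, (∀ i, z i ∈ Z) → (∀ i, z (i + 1) - z i ∈ U i) →
      ∃ y ∈ Z, ∀ i, y - z i ∈ U i)
    (hcnt : CntMod Z B) : FinMod Z B := by
  by_contra hnot
  have hanti' : ∀ {i j}, i ≤ j → U j ≤ U i := by
    intro i j hij
    induction j, hij using Nat.le_induction with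
    | base => exact le_rfl
    | succ j _ ih => exact (hanti j).trans ih
  -- the step
  have step : ∀ (z : G) (j : ℕ) (c : G), z ∈ Z → ∃ z' ∈ Z, z' - z ∈ U j ∧
      ∃ j', j < j' ∧ z' - c ∉ U j' := by
    intro z j c hz
    by_contra hc
    push Not at hc
    apply hnot
    have h1 : ∀ j' , j < j' → z - c ∈ U j' := fun j' hj' =>
      hc z hz (by rw [sub_self]; exact (U j).zero_mem) j' hj'
    have h2 : ∀ x ∈ Z, x ∈ U j → x ∈ B := by
      intro x hx hxj
      refine hsep x hx fun i => ?_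
      have hm : j < max i (j + 1) := lt_of_lt_of_le (Nat.lt_succ_self j) (le_max_right _ _)
      have h3 := hc (z + x) (Z.add_mem hz hx) (by rwa [add_sub_cancel_left]) _ hm
      have h4 := (U (max i (j + 1))).sub_mem h3 (h1 _ hm)
      have h5 : z + x - c - (z - c) = x := by abel
      rw [h5] at h4
      exact hanti' (le_max_left _ _) h4
    obtain ⟨S, hS, hSZ, h⟩ := (hfin j).exists_subset
    refine ⟨S, hS, fun x hx => ?_⟩
    obtain ⟨s, hs, hxs⟩ := h x hx
    exact ⟨s, hs, h2 _ (Z.sub_mem hx (hSZ hs)) hxs⟩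
  obtain ⟨S, hS, hSc⟩ := hcnt
  have hne : S.Nonempty := by
    obtain ⟨s, hs, -⟩ := hSc 0 Z.zero_mem
    exact ⟨s, hs⟩
  obtain ⟨c, rfl⟩ := hS.exists_eq_range hne
  choose f hf1 hf2 g hg1 hg2 using step
  -- the sequence
  let q : ℕ → {x : G × ℕ // x.1 ∈ Z} := fun i => Nat.rec ⟨(0, 0), Z.zero_mem⟩
    (fun i x => ⟨(f x.1.1 x.1.2 (c i) x.2, g x.1.1 x.1.2 (c i) x.2), hf1 _ _ _ _⟩) i
  have hq1 : ∀ i, (q (i + 1)).1.1 - (q i).1.1 ∈ U (q i).1.2 := fun i => hf2 _ _ _ _
  have hq2 : ∀ i, (q i).1.2 < (q (i + 1)).1.2 := fun i => hg1 _ _ _ _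
  have hq3 : ∀ i, (q (i + 1)).1.1 - c i ∉ U (q (i + 1)).1.2 := fun i => hg2 _ _ _ _
  have hq4 : ∀ i, i ≤ (q i).1.2 := by
    intro i
    induction i with
    | zero => exact Nat.zero_le _
    | succ i ih => exact lt_of_le_of_lt ih (hq2 i)
  have hmono : ∀ {i j}, i ≤ j → (q i).1.2 ≤ (q j).1.2 := by
    intro i j hij
    induction j, hij using Nat.le_induction with
    | base => exact le_rfl
    | succ j _ ih => exact ih.trans (hq2 j).le
  have hq5 : ∀ {i j}, i ≤ j → (q j).1.1 - (q i).1.1 ∈ U (q i).1.2 := by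
    intro i j hij
    induction j, hij using Nat.le_induction with
    | base => rw [sub_self]; exact AddSubgroup.zero_mem _
    | succ j hij ih =>
      have h1 := (U (q i).1.2).add_mem (hanti' (hmono hij) (hq1 j)) ih
      rwa [sub_add_sub_cancel] at h1
  obtain ⟨y, hy, hyq⟩ := hcomp (fun i => (q i).1.1) (fun i => (q i).2)
    (fun i => hanti' (hq4 i) (hq1 i))
  obtain ⟨_, ⟨i, rfl⟩, hyc⟩ := hSc y hy
  apply hq3 i
  obtain ⟨J, hJ⟩ : ∃ J, J = (q (i + 1)).1.2 := ⟨_, rfl⟩
  rw [← hJ]
  have h1 : y - (q (max J (i + 1))).1.1 ∈ U J := hanti' (le_max_left _ _) (hyq _)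
  have h2 : (q (max J (i + 1))).1.1 - (q (i + 1)).1.1 ∈ U J := by
    rw [hJ]
    exact hq5 (le_max_right _ (i + 1))
  have h3 := (U J).sub_mem (hUB J hyc) ((U J).add_mem h1 h2)
  have h4 : y - c i - (y - (q (max J (i + 1))).1.1 +
    ((q (max J (i + 1))).1.1 - (q (i + 1)).1.1)) = (q (i + 1)).1.1 - c i := by abel
  rwa [h4] at h3

end

/-! ### towers of complexes -/

section tower

variable (T : TowerCx.{u})

/-- elements of the limit from elements at one level -/
theorem exists_lim_of_level (hr : ∀ s j, Function.Surjective (T.r s j)) (s j : ℕ)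
    (a : T.C s j) : ∃ x : (limCx T).C s, x.1 j = a := by
  choose f hf using hr s
  -- above level `j`
  let y : ∀ i, T.C s (j + i) := fun i => Nat.rec (motive := fun i => T.C s (j + i)) a
    (fun i b => f (j + i) b) i
  have hy0 : y 0 = a := rfl
  have hy : ∀ i, T.r s (j + i) (y (i + 1)) = y i := fun i => hf (j + i) _
  let x : ∀ i, T.C s i := fun i => T.res s (Nat.le_add_left i j) (y i)
  have hres : ∀ i k (h : i ≤ k) (h' : j + i ≤ j + k), T.res s h' (y k) = y i := by
    intro i k h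
    induction k, h using Nat.le_induction with
    | base => intro h'; exact T.res_self s _ _
    | succ k h ih =>
      intro h'
      rw [T.res_succ s (by omega : j + i ≤ j + k) (y (k + 1)), hy]
      exact ih _
  refine ⟨⟨x, fun i => ?_⟩, ?_⟩
  · change T.r s i (T.res s _ (y (i + 1))) = T.res s _ (y i)
    rw [T.r_res s (by omega : i + 1 ≤ j + (i + 1)) (y (i + 1))]
    rw [← hres i (i + 1) (Nat.le_succ i) (by omega), T.res_res]
  · change T.res s _ (y j) = a
    exact (hres 0 j (Nat.zero_le j) (by omega)).trans hy0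

/-- the elements of the limit which are coboundaries at the level `j` -/
def Uj (s j : ℕ) : AddSubgroup ((limCx T).C s) where
  carrier := {x | x.1 j ∈ (levCx T j).B s}
  zero_mem' := AddSubgroup.zero_mem _
  add_mem' := fun ha hb => AddSubgroup.add_mem _ ha hb
  neg_mem' := fun ha => AddSubgroup.neg_mem _ ha

theorem mem_Uj {s j : ℕ} {x : (limCx T).C s} : x ∈ Uj T s j ↔ x.1 j ∈ (levCx T j).B s := Iff.rfl

theorem r_mem_B {s j : ℕ} {a : T.C s (j + 1)} (ha : a ∈ (levCx T (j + 1)).B s) :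
    T.r s j a ∈ (levCx T j).B s := by
  rcases s with _ | s
  · have h1 : a = 0 := (Cx.mem_B_zero (levCx T (j + 1))).1 ha
    rw [h1, map_zero]
    exact AddSubgroup.zero_mem _
  · obtain ⟨y, rfl⟩ := ha
    exact ⟨T.r s j y, T.d_r s j y⟩

/-- **`H^s` of the limit of a tower of complexes with surjective transition maps and finite
cohomology at all levels is finite if it is countable.** -/
theorem fin_lim_of_cnt (hr : ∀ s j, Function.Surjective (T.r s j)) (s : ℕ)
    (hfin : ∀ s j, (levCx T j).Fin s)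
    (hcnt : CntMod ((limCx T).Z s) ((limCx T).B s)) : (limCx T).Fin s := by
  refine finMod_of_cntMod (Uj T s) ?_ ?_ ?_ ?_ ?_ hcnt
  · -- `B ≤ U j`
    intro j x hx
    rw [mem_Uj]
    rcases s with _ | s
    · rw [(Cx.mem_B_zero (limCx T)).1 hx]
      exact AddSubgroup.zero_mem _
    · obtain ⟨y, rfl⟩ := hx
      exact ⟨y.1 j, rfl⟩
  · intro j x hx
    rw [mem_Uj] at hx ⊢
    rw [← x.2 j]
    exact r_mem_B T hx
  · -- finite quotients
    intro j
    let f : (limCx T).C s →+ (levCx T j).C s := AddMonoidHom.mk' (fun x => x.1 j) fun _ _ => rfl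
    refine ((hfin s j).comap f).mono ?_ ?_
    · intro x hx
      exact congrFun (congrArg Subtype.val hx) j
    · intro x hx
      exact hx
  · -- separated
    intro z hz hzU
    rcases s with _ | s
    · rw [Cx.mem_B_zero]
      exact Subtype.ext (funext fun j => (Cx.mem_B_zero (levCx T j)).1 (hzU j))
    · obtain ⟨y, hy, hyz⟩ := lim_cobdy_of_fin T hr s (fun j => by
        have h1 := hfin s j
        rcases s with _ | s
        · exact h1
        · exact h1) z.1 z.2 (fun j => hzU j)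
      exact ⟨⟨y, hy⟩, Subtype.ext (funext hyz)⟩
  · -- complete
    intro z hz hzz
    rcases s with _ | s
    · -- degree `0`
      have h1 : ∀ i, (z (i + 1)).1 i = (z i).1 i := fun i =>
        sub_eq_zero.1 ((Cx.mem_B_zero (levCx T i)).1 (hzz i))
      refine ⟨⟨fun i => (z i).1 i, fun i => ?_⟩, ?_, ?_⟩
      · rw [(z (i + 1)).2 i, h1]
      · exact Subtype.ext (funext fun i => congrFun (congrArg Subtype.val (hz i)) i)
      · intro i
        exact (Cx.mem_B_zero (levCx T i)).2 (sub_self _)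
    · choose y hy using hzz
      choose v hv using fun i => exists_lim_of_level T hr s i (y i)
      -- corrected sequence
      let V : ℕ → (limCx T).C s := fun i => ∑ l ∈ Finset.range i, v l
      let w : ℕ → (limCx T).C (s + 1) := fun i => z i - (limCx T).d s (V i)
      have hw : ∀ i, (w (i + 1)).1 i = (w i).1 i := by
        intro i
        have h1 : V (i + 1) = V i + v i := Finset.sum_range_succ _ _
        have h2 : ((limCx T).d s (v i)).1 i = (z (i + 1)).1 i - (z i).1 i := by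
          rw [limCx_d, hv]
          exact hy i
        change (z (i + 1)).1 i - ((limCx T).d s (V (i + 1))).1 i =
          (z i).1 i - ((limCx T).d s (V i)).1 i
        rw [h1, map_add]
        change (z (i + 1)).1 i - (((limCx T).d s (V i)).1 i + ((limCx T).d s (v i)).1 i) = _
        rw [h2]
        abel
      have hwZ : ∀ i, w i ∈ (limCx T).Z (s + 1) := fun i =>
        AddSubgroup.sub_mem _ (hz i) ((limCx T).B_le_Z (s + 1) ⟨V i, rfl⟩)
      refine ⟨⟨fun i => (w i).1 i, fun i => ?_⟩, ?_, ?_⟩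
      · rw [(w (i + 1)).2 i, hw]
      · exact Subtype.ext (funext fun i => congrFun (congrArg Subtype.val (hwZ i)) i)
      · intro i
        refine ⟨- (V i).1 i, ?_⟩
        change T.d s i (- (V i).1 i) = (z i).1 i - T.d s i ((V i).1 i) - (z i).1 i
        rw [map_neg]
        abel

end tower

end Vale.Agent.P261.H36
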