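import Vale.Agent.P251.F.GDescent

/-!
# P261: finiteness of cohomology, descent

`HFin G M s`: finiteness of `H^s(G; M)` (`s ≥ 1`), in the form of a separating map to a finite
type. `descent_fin`: let `A` be a complex of discrete `G`-modules which is exact in positive degrees
and consists of acyclic modules. If `H^{s+1}(G; ker (A 0 → A 1))` is finite then so is
`H^{s+1}(A^G)`.
-/

namespace Vale.Agent.P261.H36

open Vale.Agent.P251.C Vale.Agent.P251.F

/-- `Z / B` is finite, in the form of a separating map. -/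
def SepFin {A : Type*} [AddCommGroup A] (Z B : A → Prop) : Prop :=
  ∃ (κ : Type) (_ : Finite κ) (c : A → κ), ∀ z z', Z z → Z z' → c z = c z' → B (z - z')

/-- `H^s(G; M)` is finite (`s ≥ 1`). -/
def HFin (G M : Type*) [Group G] [TopologicalSpace G] [AddCommGroup M]
    [DistribMulAction G M] (s : ℕ) : Prop :=
  ∃ (κ : Type) (_ : Finite κ) (c : ((Fin (s + 1) → G) → M) → κ),
    ∀ F F' : (Fin (s + 1) → G) → M, IsCoch G F → IsCoch G F' → dd F = 0 → dd F' = 0 →
      c F = c F' → ∃ Y : (Fin s → G) → M, IsCoch G Y ∧ dd Y = F - F'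

theorem SepFin.mono {A : Type*} [AddCommGroup A] {Z B Z' B' : A → Prop} (h : SepFin Z B)
    (hZ : ∀ z, Z' z → Z z) (hB : ∀ z, B z → B' z) : SepFin Z' B' := by
  obtain ⟨κ, hκ, c, hc⟩ := h
  exact ⟨κ, hκ, c, fun z z' hz hz' e => hB _ (hc z z' (hZ z hz) (hZ z' hz') e)⟩

/-- Pull back of a separating map along a function. -/
theorem SepFin.comap {A A' : Type*} [AddCommGroup A] [AddCommGroup A'] {Z B : A → Prop}
    {Z' B' : A' → Prop} (h : SepFin Z B) (f : A' → A) (hf : ∀ z, Z' z → Z (f z))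
    (hB : ∀ z z', Z' z → Z' z' → B (f z - f z') → B' (z - z')) : SepFin Z' B' := by
  obtain ⟨κ, hκ, c, hc⟩ := h
  exact ⟨κ, hκ, c ∘ f, fun z z' hz hz' e =>
    hB z z' hz hz' (hc (f z) (f z') (hf z hz) (hf z' hz') e)⟩

/-- Pull back of a separating map along a relation. -/
theorem SepFin.of_rel {A A' : Type*} [AddCommGroup A] [AddCommGroup A'] {Z B : A → Prop}
    {Z' B' : A' → Prop} (h : SepFin Z B) (R : A' → A → Prop) (hf : ∀ z, Z' z → ∃ a, Z a ∧ R z a)
    (hB : ∀ z z' a a', Z' z → Z' z' → R z a → R z' a' → B (a - a') → B' (z - z')) :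
    SepFin Z' B' := by
  classical
  refine h.comap (fun z => if hz : Z' z then (hf z hz).choose else 0) (fun z hz => ?_)
    fun z z' hz hz' e => ?_
  · rw [dif_pos hz]
    exact (hf z hz).choose_spec.1
  · rw [dif_pos hz, dif_pos hz'] at e
    exact hB z z' _ _ hz hz' (hf z hz).choose_spec.2 (hf z' hz').choose_spec.2 e

/-- If `Z / B` is finite then the quotient group is finite. -/
theorem SepFin.finite {A : Type*} [AddCommGroup A] {Z B : AddSubgroup A}
    (h : SepFin (· ∈ Z) (· ∈ B)) : Finite (Z ⧸ B.addSubgroupOf Z) := by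
  obtain ⟨κ, hκ, c, hc⟩ := h
  refine Finite.of_injective (fun q : Z ⧸ B.addSubgroupOf Z => c (q.out : A)) fun q q' e => ?_
  have h1 := hc _ _ q.out.2 q'.out.2 e
  rw [← QuotientAddGroup.out_eq' q, ← QuotientAddGroup.out_eq' q', eq_comm, QuotientAddGroup.eq,
    AddSubgroup.mem_addSubgroupOf]
  rw [AddSubgroup.coe_add, AddSubgroup.coe_neg, neg_add_eq_sub]
  exact h1

theorem SepFin.of_finite {A : Type*} [AddCommGroup A] {Z B : AddSubgroup A}
    [h : Finite (Z ⧸ B.addSubgroupOf Z)] : SepFin (· ∈ Z) (· ∈ B) := by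
  classical
  obtain ⟨n, ⟨e⟩⟩ := Finite.exists_equiv_fin (Z ⧸ B.addSubgroupOf Z)
  refine ⟨Option (Fin n), inferInstance, fun a => if ha : a ∈ Z then
    some (e (QuotientAddGroup.mk ⟨a, ha⟩)) else none, fun z z' hz hz' h' => ?_⟩
  have hz1 : z ∈ Z := hz
  have hz1' : z' ∈ Z := hz'
  change (if ha : z ∈ Z then some (e (QuotientAddGroup.mk ⟨z, ha⟩)) else none) =
    (if ha : z' ∈ Z then some (e (QuotientAddGroup.mk ⟨z', ha⟩)) else none) at h'
  rw [dif_pos hz1, dif_pos hz1', Option.some_inj, e.apply_eq_iff_eq, eq_comm,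
    QuotientAddGroup.eq, AddSubgroup.mem_addSubgroupOf, AddSubgroup.coe_add, AddSubgroup.coe_neg,
    neg_add_eq_sub] at h'
  exact h'

theorem hFin_iff_sepFin {G M : Type*} [Group G] [TopologicalSpace G] [AddCommGroup M]
    [DistribMulAction G M] {s : ℕ} : HFin G M s ↔
      SepFin (fun F : (Fin (s + 1) → G) → M => IsCoch G F ∧ dd F = 0)
        (fun F => ∃ Y : (Fin s → G) → M, IsCoch G Y ∧ dd Y = F) := by
  constructor
  · rintro ⟨κ, hκ, c, hc⟩
    exact ⟨κ, hκ, c, fun z z' hz hz' e => hc z z' hz.1 hz'.1 hz.2 hz'.2 e⟩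
  · rintro ⟨κ, hκ, c, hc⟩
    exact ⟨κ, hκ, c, fun z z' h1 h1' h2 h2' e => hc z z' ⟨h1, h2⟩ ⟨h1', h2'⟩ e⟩

section Descent

variable {G : Type*} [Group G] [TopologicalSpace G] [IsTopologicalGroup G]
variable {A : ℕ → Type*} [∀ b, AddCommGroup (A b)] [∀ b, DistribMulAction G (A b)]

/-- **Descent of finiteness.** -/
theorem descent_fin [∀ b, DiscMod G (A b)] (d : ∀ b, A b →+[G] A (b + 1))
    (hdd : ∀ b x, d (b + 1) (d b x) = 0)
    (hex : ∀ b x, d (b + 1) x = 0 → ∃ y, d b y = x)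
    (hG : ∀ a b, HZero G (A b) (a + 1)) (s : ℕ)
    (hM : SepFin (fun c : (Fin (s + 2) → G) → A 0 => IsCoch G c ∧ dd c = 0 ∧
        ∀ x, d 0 (c x) = 0)
      (fun c => ∃ m : (Fin (s + 1) → G) → A 0, IsCoch G m ∧ (∀ x, d 0 (m x) = 0) ∧ dd m = c)) :
    SepFin (fun z : A (s + 1) => (∀ g : G, g • z = z) ∧ d (s + 1) z = 0)
      (fun z => ∃ y : A s, (∀ g : G, g • y = y) ∧ d s y = z) := by
  have Q : ∀ b a : ℕ, a + b = s → SepFin (fun c : (Fin (a + 2) → G) → A b => IsCoch G c ∧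
      dd c = 0 ∧ ∀ x, d b (c x) = 0)
      (fun c => ∃ m : (Fin (a + 1) → G) → A b, IsCoch G m ∧ (∀ x, d b (m x) = 0) ∧
        dd m = c) := by
    intro b
    induction b with
    | zero =>
      intro a ha
      obtain rfl : a = s := ha
      exact hM
    | succ b ih =>
      intro a ha
      refine (ih (a + 1) (by omega)).of_rel (fun c c' => ∃ y : (Fin (a + 2) → G) → A b,
        IsCoch G y ∧ (∀ x, d b (y x) = c x) ∧ c' = dd y) ?_ ?_
      · rintro c ⟨hc, hdc, hd⟩
        obtain ⟨y, hy, hyc⟩ := coch_lift (d b) (d (b + 1)) (hex b) hc hd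
        refine ⟨dd y, ⟨hy.dd, dd_dd y, fun x => ?_⟩, y, hy, hyc, rfl⟩
        have h1 := congrFun (dd_mapG (d b) y) x
        rw [show (fun x => d b (y x)) = c from funext hyc, hdc] at h1
        exact h1.symm
      · rintro c c' _ _ ⟨hc, hdc, hd⟩ ⟨hc', hdc', hd'⟩ ⟨y, hy, hyc, rfl⟩ ⟨y', hy', hyc', rfl⟩
          ⟨m, hm, hdm, hm'⟩
        obtain ⟨w, hw, hdw⟩ := hG a b (y - y' - m) ((hy.sub hy').sub hm) (by
          rw [dd_sub, dd_sub, hm', sub_self])
        refine ⟨fun x => d b (w x), hw.map (d b), fun x => hdd b _, ?_⟩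
        rw [dd_mapG, hdw]
        funext x
        simp only [Pi.sub_apply, map_sub, hyc, hyc', hdm, sub_zero]
  refine (Q s 0 (by omega)).of_rel (fun z c => ∃ y : (Fin 1 → G) → A s,
    IsCoch G y ∧ (∀ x, d s (y x) = z) ∧ c = dd y) ?_ ?_
  · rintro z ⟨hz, hdz⟩
    obtain ⟨y, hy, hyz⟩ := coch_lift (n := 0) (d s) (d (s + 1)) (hex s)
      (F := fun _ => z) ⟨IsLocallyConstant.const z, fun g _ => (hz g).symm⟩ (fun _ => hdz)
    refine ⟨dd y, ⟨hy.dd, dd_dd y, fun x => ?_⟩, y, hy, hyz, rfl⟩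
    have h1 := congrFun (dd_mapG (d s) y) x
    rw [show (fun x => d s (y x)) = fun _ => z from funext hyz] at h1
    refine h1.symm.trans ?_
    simp [dd, Fin.sum_univ_succ]
  · rintro z z' _ _ ⟨hz, hdz⟩ ⟨hz', hdz'⟩ ⟨y, hy, hyz, rfl⟩ ⟨y', hy', hyz', rfl⟩
      ⟨m, hm, hdm, hm'⟩
    have h0 : dd (y - y' - m) = 0 := by
      rw [dd_sub, dd_sub, hm', sub_self]
    have h1 : ∀ g h : G, (y - y' - m) (fun _ => g) = (y - y' - m) fun _ => h := by
      intro g h
      have := congrFun h0 (Fin.cons h (fun _ => g))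
      rw [dd_cons, dd_one] at this
      simp only [Pi.zero_apply, sub_eq_zero] at this
      have e : (Fin.cons h (fun i : Fin 0 => i.elim0) : Fin 1 → G) = fun _ => h := by
        funext j
        fin_cases j
        rfl
      rw [e] at this
      exact this
    refine ⟨(y - y' - m) fun _ => 1, fun g => ?_, ?_⟩
    · have h2 := ((hy.sub hy').sub hm).equi g (fun _ => 1)
      rw [← h2, ← h1 (g * 1) 1]
    · simp only [Pi.sub_apply, map_sub, hyz, hyz', hdm, sub_zero]

end Descent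

end Vale.Agent.P261.H36
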