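import Vale.Agent.P251.F.LTFinal
import Vale.Agent.P261.H36.Cobar

/-!
# P261: finiteness of the modules `Prim (T j) w` for the Lubin–Tate tower
-/

namespace Vale.Agent.P261.H36

open Vale.Agent.P251.C Vale.Agent.P251.F Vale.Agent.P251

variable {p h : ℕ} [hp : Fact p.Prime] {k : Type} [Field k]

theorem finite_EJ (D : LTD p h k) (j : ℕ) : Finite (D.EJ j) := by
  have := D.finite
  exact Module.finite_of_finite k

/-- **B3.** The modules `Prim (T j) w` of the Lubin–Tate tower are finite. -/
theorem finite_M (D : LTD p h k) (w : ℤ) (j : ℕ) : Finite (D.tower.M w j) := by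
  have := finite_EJ D j
  exact Finite.of_surjective _ ((D.coPt j).primHom_bijective (D.isCo j) w (G := D.GG)).2

/-- The group-theoretic data at height `h` with finite coefficient modules. -/
theorem exists_gdata (p h : ℕ) [hp : Fact p.Prime] (hh : h ≠ 0) :
    ∃ D : GData p h, (∀ w j, Finite (D.X.M w j)) ∧
      (¬ (p - 1) ∣ h → ∀ g : D.G, g ^ p = 1 → g = 1) := by
  obtain ⟨D⟩ := LTD.exists_galoisField p h hh
  have := D.finite
  have := D.charP
  have := D.H.comm
  exact ⟨GData.ofHonda D.honda D.card (Nat.pos_of_ne_zero hh) D.tower,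
    fun w j => finite_M D w j, fun hd g hg => D.honda.eq_one_of_pow_p hd g hg⟩

end Vale.Agent.P261.H36
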