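import Vale.Agent.P251.F.F3Sparse
import Vale.Agent.P251.F.LawHom

/-! # P261 / H36 / Homot : the homotopy given by the automorphism `[a](x)`

For a law ring `N` in which the natural number `a` is invertible, every law `F` over an
`N`-algebra has the automorphism `[a]_F(x) = a x + …`. The strict series
`a⁻¹ [a]_F(x)` is an isomorphism from `F` to the rescaling of `F` by `a`. Hence the cochain map
given by rescaling by `a` is homotopic to the identity of the cobar complex: its cohomology in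
weight `w` is killed by `a ^ w - 1`. The homotopy preserves weights and is natural in `N`. -/

noncomputable section

namespace Vale.Agent.P261.H36

open Vale.Agent.P217 Vale.Agent.P251.F Vale.Agent.P251.F.F3 LawRing

/-- The number `a` is invertible in the ring `B`. -/
class NUnit (a : ℕ) (B : Type*) [CommRing B] : Prop where
  out : IsUnit (a : B)

theorem NUnit.map {a : ℕ} {B C : Type*} [CommRing B] [CommRing C] (φ : B →+* C) [h : NUnit a B] :
    NUnit a C := ⟨by
  have := h.out.map φ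
  rwa [map_natCast] at this⟩

instance nunit_mvPolynomial {a : ℕ} {N : Type*} [CommRing N] {σ : Type*} [NUnit a N] :
    NUnit a (MvPolynomial σ N) := NUnit.map (MvPolynomial.C (σ := σ) (R := N))

/-- the unit `a` -/
def uA (a : ℕ) (B : Type*) [CommRing B] [NUnit a B] : Bˣ := (NUnit.out (a := a) (B := B)).unit

@[simp] theorem val_uA (a : ℕ) (B : Type*) [CommRing B] [NUnit a B] : (uA a B : B) = a :=
  IsUnit.unit_spec _

theorem map_uA (a : ℕ) {B C : Type*} [CommRing B] [CommRing C] [NUnit a B] [NUnit a C]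
    (φ : B →+* C) : Units.map (φ : B →* C) (uA a B) = uA a C := by
  ext
  rw [Units.coe_map, val_uA, val_uA]
  exact map_natCast φ a

section InvS

variable {B C : Type*} [CommRing B] [CommRing C] (a : ℕ) [NUnit a B] [NUnit a C]

/-- the automorphism `[a]_F` of a law -/
def multI (F : Law B) : InvSeries B where
  val := multSeries F.toFG a
  cc := constantCoeff_multSeries _ _
  isUnit := by
    rw [coeff_one_multSeries]
    exact NUnit.out

theorem multI_val (F : Law B) : (multI a F).val = multSeries F.toFG a := rfl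

theorem multI_smul (F : Law B) : multI a F • F = F :=
  (InvSeries.smul_eq_iff_isHom _ _ _).2 (isHom_multSeries F.toFG a)

theorem mul_multI (f : InvSeries B) (F : Law B) :
    f * multI a F = multI a (f • F) * f := by
  ext1
  exact smul_multSeries f F a

theorem inv_mul_multI (f : InvSeries B) (F : Law B) :
    f⁻¹ * multI a (f • F) = multI a F * f⁻¹ := by
  rw [inv_mul_eq_iff_eq_mul, ← mul_assoc, mul_multI, mul_inv_cancel_right]

theorem map_multI (φ : B →+* C) (F : Law B) :
    InvSeries.map φ (multI a F) = multI a (F.map φ) := by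
  ext1
  exact map_multSeries φ F.toFG a

theorem c_zero_multI (F : Law B) : (multI a F).c 0 = a := coeff_one_multSeries a

/-- `a⁻¹ [a]_F(x)` is strict, and so is `a⁻¹ g([a]_F(x))` for strict `g`. -/
theorem strict_aux (g : strict B) (F : Law B) :
    (InvSeries.lin (uA a B))⁻¹ * (g : InvSeries B) * multI a F ∈ strict B := by
  rw [mem_strict, InvSeries.c_zero_mul, InvSeries.c_zero_mul, c_zero_multI, mem_strict.1 g.2,
    mul_one, ← val_uA a B, ← map_inv, InvSeries.c_zero_lin, Units.inv_mul]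

end InvS

variable {N : Type} [CommRing N] {A B C : Type} [CommRing A] [CommRing B] [CommRing C]

section

variable [LawRing N] (a : ℕ) [NUnit a A] [NUnit a B] [NUnit a C]

/-- `U k = a⁻¹ (G k) ([a]_F)` -/
def aSeq (x : N →+* B) (G : ℕ → strict B) : ℕ → strict B := fun k =>
  ⟨(InvSeries.lin (uA a B))⁻¹ * (G k : InvSeries B) * multI a (law.map x),
    strict_aux a (G k) (law.map x)⟩

theorem val_aSeq (x : N →+* B) (G : ℕ → strict B) (k : ℕ) :
    (aSeq a x G k : InvSeries B) =
      (InvSeries.lin (uA a B))⁻¹ * (G k : InvSeries B) * multI a (law.map x) := rfl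

theorem aSeq_del (x : N →+* B) (G : ℕ → strict B) (j : ℕ) :
    aSeq a x (del j G) = del j (aSeq a x G) := by
  funext k
  simp only [del, aSeq]
  split_ifs <;> rfl

theorem smap_aSeq (φ : B →+* C) (x : N →+* B) (G : ℕ → strict B) (k : ℕ) :
    smap φ (aSeq a x G k) = aSeq a (φ.comp x) (fun k => smap φ (G k)) k := by
  apply Subtype.ext
  rw [val_smap, val_aSeq, val_aSeq, map_mul, map_mul, map_inv, InvSeries.map_lin, map_uA,
    map_multI, Law.map_map]
  rfl

theorem aSeq_translate (x : N →+* B) (G G' : ℕ → strict B) (g : InvSeries B) (k : ℕ)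
    (h : (G' k : InvSeries B) = G k * g⁻¹) :
    (aSeq a (act g x) G' k : InvSeries B) = aSeq a x G k * g⁻¹ := by
  rw [val_aSeq, val_aSeq, h, law_act, ← mul_assoc, mul_assoc _ g⁻¹, inv_mul_multI, mul_assoc,
    mul_assoc, mul_assoc]

theorem aSeq_conj (x : N →+* B) (G : ℕ → strict B) (u : Bˣ) :
    aSeq a (act (InvSeries.lin u)⁻¹ x) (conjSeq u G) = conjSeq u (aSeq a x G) := by
  funext k
  apply Subtype.ext
  have h1 : InvSeries.lin u * multI a ((InvSeries.lin u)⁻¹ • (law : Law N).map x) =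
      multI a ((law : Law N).map x) * InvSeries.lin u := by
    have := inv_mul_multI a (InvSeries.lin u)⁻¹ ((law : Law N).map x)
    rwa [inv_inv] at this
  have h2 : (InvSeries.lin (uA a B))⁻¹ * (InvSeries.lin u)⁻¹ =
      (InvSeries.lin u)⁻¹ * (InvSeries.lin (uA a B))⁻¹ := by
    rw [← map_inv, ← map_inv, ← map_mul, ← map_mul, mul_comm]
  change (InvSeries.lin (uA a B))⁻¹ * ((InvSeries.lin u)⁻¹ * G k * InvSeries.lin u) *
    multI a ((law : Law N).map (act (InvSeries.lin u)⁻¹ x)) = (InvSeries.lin u)⁻¹ *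
    ((InvSeries.lin (uA a B))⁻¹ * G k * multI a ((law : Law N).map x)) * InvSeries.lin u
  rw [law_act]
  calc (InvSeries.lin (uA a B))⁻¹ * ((InvSeries.lin u)⁻¹ * G k * InvSeries.lin u) *
        multI a ((InvSeries.lin u)⁻¹ • (law : Law N).map x)
      = ((InvSeries.lin (uA a B))⁻¹ * (InvSeries.lin u)⁻¹) * G k * (InvSeries.lin u *
        multI a ((InvSeries.lin u)⁻¹ • (law : Law N).map x)) := by group
    _ = ((InvSeries.lin u)⁻¹ * (InvSeries.lin (uA a B))⁻¹) * G k *
        (multI a ((law : Law N).map x) * InvSeries.lin u) := by rw [h1, h2]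
    _ = _ := by group

/-! ### chains and operators -/

/-- the `i`-th prism over a chain -/
def prismA {n : ℕ} (i : ℕ) (c : Chain N n B) : Chain N (n + 1) B :=
  ofSeq (n + 1) c.pt (prs i (seq c) (aSeq a c.pt (seq c)))

theorem prismA_map {n : ℕ} (i : ℕ) (φ : B →+* C) (c : Chain N n B) :
    (prismA a i c).map φ = prismA a i (c.map φ) := by
  rw [prismA, ofSeq_map, prismA, smap_prs, seq_map]
  congr 2
  funext k
  exact smap_aSeq a φ c.pt (seq c) k

variable [NUnit a N]

/-- the homotopy operator -/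
def hA (n : ℕ) : Cob N (n + 1) →+ Cob N n :=
  ∑ i ∈ Finset.range (n + 1), ((-1 : ℤ) ^ i) •
    (Cob.ev (prismA a i (Cob.univ N n)) : Cob N (n + 1) →+* Cob N n).toAddMonoidHom

theorem ev_hA {n : ℕ} (c : Chain N n B) (z : Cob N (n + 1)) :
    Cob.ev c (hA a n z) =
      ∑ i ∈ Finset.range (n + 1), ((-1 : ℤ) ^ i) • Cob.ev (prismA a i c) z := by
  rw [hA, AddMonoidHom.finsetSum_apply, map_sum]
  refine Finset.sum_congr rfl fun i _ => ?_
  rw [AddMonoidHom.smul_apply, map_zsmul]
  congr 1
  change Cob.ev c (Cob.ev (prismA a i (Cob.univ N n)) z) = _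
  rw [← Cob.ev_map, prismA_map, Cob.univ_map_ev]

omit [NUnit a N] in
theorem prismA_ofSeq {n : ℕ} {i : ℕ} (hi : i ≤ n) (x : N →+* B) (G : ℕ → strict B) :
    prismA a i (ofSeq n x G) = ofSeq (n + 1) x (prs i G (aSeq a x G)) := by
  rw [prismA, ofSeq_pt]
  have hV : ∀ k ≤ n, (seq (ofSeq n x G) k : InvSeries B) = G k * (G 0 : InvSeries B)⁻¹ := by
    intro k hk
    change (ofSeq n x G).g ⟨min k n, _⟩ = _
    rw [ofSeq_g]
    congr 3
    simp
    omega
  have hU : ∀ k ≤ n, (aSeq a (act (G 0 : InvSeries B) x) (seq (ofSeq n x G)) k : InvSeries B) =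
      aSeq a x G k * (G 0 : InvSeries B)⁻¹ := fun k hk => aSeq_translate a _ _ _ _ _ (hV k hk)
  refine ofSeq_translate x _ _ _ fun k hk => ?_
  simp only [prs]
  split_ifs with h
  · exact hV k (by omega)
  · exact hU (k - 1) (by omega)

theorem ev_hA_ofSeq {n : ℕ} (x : N →+* B) (G : ℕ → strict B) (z : Cob N (n + 1)) :
    Cob.ev (ofSeq n x G) (hA a n z) =
      ∑ i ∈ Finset.range (n + 1), ((-1 : ℤ) ^ i) • evSeq x z (prs i G (aSeq a x G)) := by
  rw [ev_hA]
  refine Finset.sum_congr rfl fun i hi => ?_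
  rw [Finset.mem_range] at hi
  rw [prismA_ofSeq a (by omega), evSeq]

omit [NUnit a N] in
/-- the end of the homotopy is the rescaled chain -/
theorem ofSeq_aSeq (hN : PtsInj N) {n : ℕ} (x : N →+* B) (G : ℕ → strict B) :
    ofSeq n x (aSeq a x G) = (ofSeq n x G).scale (uA a B) := by
  have hx : act (multI a ((law : Law N).map x)) x = x := by
    apply hN
    rw [law_act, multI_smul]
  ext1
  · change act ((InvSeries.lin (uA a B))⁻¹ * (G 0 : InvSeries B) *
      multI a ((law : Law N).map x)) x = act (InvSeries.lin (uA a B))⁻¹ (act (G 0 : InvSeries B) x)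
    rw [act_mul, hx, act_mul]
  · funext i
    change ((InvSeries.lin (uA a B))⁻¹ * (G i : InvSeries B) *
      multI a ((law : Law N).map x)) * ((InvSeries.lin (uA a B))⁻¹ * (G 0 : InvSeries B) *
      multI a ((law : Law N).map x))⁻¹ = (InvSeries.lin (uA a B))⁻¹ *
      ((G i : InvSeries B) * (G 0 : InvSeries B)⁻¹) * InvSeries.lin (uA a B)
    group

theorem end_aux (hN : PtsInj N) {n : ℕ} {w : ℤ} {z : Cob N n} (hz : Cob.IsWt w z)
    (c : Chain N n B) :
    evSeq c.pt z (aSeq a c.pt (seq c)) - Cob.ev c z =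
      Cob.ev c (((uA a (Cob N n) ^ w : (Cob N n)ˣ) : Cob N n) * z - z) := by
  rw [map_sub, map_mul, evSeq, ofSeq_aSeq a hN, hz, ofSeq_seq]
  congr 2
  rw [← map_uA a (Cob.ev c), ← map_zpow]
  rfl

/-- the homotopy identity in positive degrees -/
theorem hA_d_add_d_hA (hN : PtsInj N) {n : ℕ} {w : ℤ} {z : Cob N (n + 1)} (hz : Cob.IsWt w z) :
    hA a (n + 1) (Cob.d (n + 1) z) + Cob.d n (hA a n z) =
      ((uA a (Cob N (n + 1)) ^ w : (Cob N (n + 1))ˣ) : Cob N (n + 1)) * z - z := by
  apply Cob.ext_ev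
  intro B _ c
  have : NUnit a B := NUnit.map c.pt
  rw [← end_aux a hN hz, map_add]
  set x := c.pt with hx
  set V := seq c with hV
  set U := aSeq a x V with hU
  have hc : c = ofSeq (n + 1) x V := (ofSeq_seq c).symm
  have h1 : Cob.ev c (hA a (n + 1) (Cob.d (n + 1) z)) =
      ∑ i ∈ Finset.range (n + 1 + 1), ∑ j ∈ Finset.range (n + 1 + 2),
        ((-1 : ℤ) ^ (i + j)) • evSeq x z (del j (prs i V U)) := by
    rw [ev_hA]
    refine Finset.sum_congr rfl fun i _ => ?_
    rw [prismA, ev_d_ofSeq, Finset.smul_sum]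
    refine Finset.sum_congr rfl fun j _ => ?_
    rw [smul_smul, ← pow_add]
  have h2 : Cob.ev c (Cob.d n (hA a n z)) =
      ∑ i ∈ Finset.range (n + 1), ∑ j ∈ Finset.range (n + 1 + 1),
        ((-1 : ℤ) ^ (i + j)) • evSeq x z (prs i (del j V) (del j U)) := by
    rw [Finset.sum_comm]
    rw [hc, ev_d_ofSeq]
    refine Finset.sum_congr rfl fun j _ => ?_
    rw [evSeq, ev_hA_ofSeq, Finset.smul_sum]
    refine Finset.sum_congr rfl fun i _ => ?_
    rw [smul_smul, ← pow_add, add_comm, aSeq_del]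
  rw [h1, h2, prism_identity]
  congr 1
  conv_rhs => rw [← ofSeq_seq c]
  refine evSeq_congr x z fun k hk => ?_
  simp only [mix]
  rw [if_pos (by omega)]

/-- the homotopy identity in degree `0` -/
theorem hA_d_zero (hN : PtsInj N) {w : ℤ} {z : Cob N 0} (hz : Cob.IsWt w z) :
    hA a 0 (Cob.d 0 z) = ((uA a (Cob N 0) ^ w : (Cob N 0)ˣ) : Cob N 0) * z - z := by
  apply Cob.ext_ev
  intro B _ c
  have : NUnit a B := NUnit.map c.pt
  rw [← end_aux a hN hz]
  set x := c.pt with hx
  set V := seq c with hV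
  set U := aSeq a x V with hU
  have h1 : Cob.ev c (hA a 0 (Cob.d 0 z)) =
      ∑ i ∈ Finset.range (0 + 1), ∑ j ∈ Finset.range (0 + 2),
        ((-1 : ℤ) ^ (i + j)) • evSeq x z (del j (prs i V U)) := by
    rw [ev_hA]
    refine Finset.sum_congr rfl fun i _ => ?_
    rw [prismA, ev_d_ofSeq, Finset.smul_sum]
    refine Finset.sum_congr rfl fun j _ => ?_
    rw [smul_smul, ← pow_add]
  have h3 := prism_identity V U (evSeq x z) 0
  rw [Finset.range_zero, Finset.sum_empty, add_zero] at h3
  rw [h1, h3]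
  congr 1
  conv_rhs => rw [← ofSeq_seq c]
  refine evSeq_congr x z fun k hk => ?_
  simp only [mix]
  rw [if_pos (by omega)]

/-! ### weights -/

omit [NUnit a N] in
theorem prismA_scale {n : ℕ} (i : ℕ) (c : Chain N n B) (u : Bˣ) :
    prismA a i (c.scale u) = (prismA a i c).scale u := by
  rw [prismA, prismA, ofSeq_scale, conjSeq_prs, seq_scale, ← aSeq_conj]
  rfl

theorem isWt_hA {n : ℕ} {w : ℤ} {z : Cob N (n + 1)} (hz : Cob.IsWt w z) :
    Cob.IsWt w (hA a n z) := by
  intro B _ c u
  have : NUnit a B := NUnit.map c.pt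
  rw [ev_hA, ev_hA, Finset.mul_sum]
  refine Finset.sum_congr rfl fun i _ => ?_
  rw [prismA_scale, hz, mul_smul_comm]

/-! ### naturality -/

variable {M : Type} [CommRing M] [LawRing M] [NUnit a M]

omit [NUnit a N] [NUnit a M] in
theorem prismA_pre {φ : N →+* M} (hφ : IsLawHom φ) {n : ℕ} (i : ℕ) (c : Chain M n B) :
    (prismA a i c).pre φ = prismA a i (c.pre φ) := by
  have h : ∀ k, aSeq a c.pt (seq c) k = aSeq a (c.pre φ).pt (seq (c.pre φ)) k := by
    intro k
    apply Subtype.ext
    rw [val_aSeq, val_aSeq]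
    congr 2
    change (law : Law M).map c.pt = (law : Law N).map (c.pt.comp φ)
    rw [← Law.map_map, hφ.law]
  have h' : aSeq a c.pt (seq c) = aSeq a (c.pre φ).pt (seq (c.pre φ)) := funext h
  rw [prismA, prismA, ← h']
  ext1
  · exact hφ.act _ _ _
  · rfl

theorem mapRing_hA {φ : N →+* M} (hφ : IsLawHom φ) {n : ℕ} (z : Cob N (n + 1)) :
    Cob.mapRing φ n (hA a n z) = hA a n (Cob.mapRing φ (n + 1) z) := by
  apply Cob.ext_ev
  intro B _ c
  have : NUnit a B := NUnit.map c.pt
  rw [Cob.ev_mapRing, ev_hA, ev_hA]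
  refine Finset.sum_congr rfl fun i _ => ?_
  rw [Cob.ev_mapRing, prismA_pre a hφ]

end

end Vale.Agent.P261.H36

end
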