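import Vale.Agent.P261.H36.Homot
import Vale.Agent.P261.CobTow
import Mathlib.NumberTheory.Multiplicity

/-! # P261 / H36 / HomotLim : the cohomology in weight `w` is killed by `a ^ |w| - 1`

`kap a w n : Cob N (n+1) →+ Cob N n` is a contraction, natural in the law ring `N` and compatible
with weights, of multiplication by the integer `ea a w = a ^ |w| - 1` on the part of weight `w` of
the cobar complex (`kap_d_add_d_kap`, `kap_d_zero`). Consequence for the limits of towers: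
`ea_smul_mem_B`. -/

noncomputable section

namespace Vale.Agent.P261.H36

open Vale.Agent.P217 Vale.Agent.P251.F Vale.Agent.P251.F.F3 Vale.Agent.P251.S LawRing

/-- the integer `a ^ |w| - 1` -/
def ea (a : ℕ) (w : ℤ) : ℤ := (a : ℤ) ^ w.natAbs - 1

/-- the sign and power that turn `a ^ w - 1` into `a ^ |w| - 1` -/
def ka (a : ℕ) (w : ℤ) : ℤ := if 0 ≤ w then 1 else - (a : ℤ) ^ w.natAbs

theorem ka_mul (a : ℕ) (w : ℤ) (B : Type*) [CommRing B] [NUnit a B] :
    ((ka a w : ℤ) : B) * (((uA a B ^ w : Bˣ) : B) - 1) = ((ea a w : ℤ) : B) := by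
  rw [ka, ea]
  split_ifs with h
  · obtain ⟨n, rfl⟩ := Int.eq_ofNat_of_zero_le h
    rw [Int.natAbs_natCast, zpow_natCast, Units.val_pow_eq_pow_val, val_uA]
    push_cast
    ring
  · obtain ⟨n, hn⟩ := Int.eq_ofNat_of_zero_le (by omega : 0 ≤ -w)
    obtain rfl : w = -(n : ℤ) := by omega
    rw [Int.natAbs_neg, Int.natAbs_natCast, zpow_neg, zpow_natCast]
    have h1 : (a : B) ^ n * (((uA a B ^ n)⁻¹ : Bˣ) : B) = 1 := by
      have := (uA a B ^ n).mul_inv
      rwa [Units.val_pow_eq_pow_val, val_uA] at this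
    generalize (((uA a B ^ n)⁻¹ : Bˣ) : B) = y at h1 ⊢
    push_cast
    linear_combination (-1 : B) * h1

theorem ea_pos {a : ℕ} (ha : 1 < a) {w : ℤ} (hw : w ≠ 0) : 0 < ea a w := by
  rw [ea, sub_pos]
  exact one_lt_pow₀ (by exact_mod_cast ha) (by rwa [ne_eq, Int.natAbs_eq_zero])

/-- `1 + p` is invertible where `p` is nilpotent. -/
theorem NUnit.of_isNilpotent {p : ℕ} {B : Type*} [CommRing B] (h : IsNilpotent (p : B)) :
    NUnit (p + 1) B := ⟨by
  rw [Nat.cast_add, Nat.cast_one]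
  exact h.isUnit_add_one⟩

/-- `(1 + p) ^ |w| - 1 = p ^ (1 + v_p(w)) u` with `u` prime to `p`. -/
theorem ea_eq (p : ℕ) [hp : Fact p.Prime] (hp2 : p ≠ 2) {w : ℤ} (hw : w ≠ 0) :
    ∃ u : ℤ, ea (p + 1) w = (p : ℤ) ^ (1 + padicValInt p w) * u ∧ ¬ (p : ℤ) ∣ u := by
  have h0 : w.natAbs ≠ 0 := by rwa [ne_eq, Int.natAbs_eq_zero]
  have h1 : padicValNat p ((p + 1) ^ w.natAbs - 1 ^ w.natAbs) =
      padicValNat p (p + 1 - 1) + padicValNat p w.natAbs := by
    refine padicValNat.pow_sub_pow (hp.out.odd_of_ne_two hp2) (by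
      have := hp.out.pos
      omega) (by rw [Nat.add_sub_cancel]) ?_ h0
    intro h
    have h2 := (Nat.dvd_sub h (dvd_refl p))
    rw [Nat.add_sub_cancel_left] at h2
    exact hp.out.one_lt.ne' (Nat.dvd_one.1 h2)
  rw [one_pow, Nat.add_sub_cancel, padicValNat_self] at h1
  have h3 : (p + 1) ^ w.natAbs - 1 ≠ 0 := by
    have h4 : 1 < (p + 1) ^ w.natAbs := Nat.one_lt_pow h0 (by
      have := hp.out.pos
      omega)
    omega
  obtain ⟨u, hu⟩ := pow_padicValNat_dvd (p := p) (n := (p + 1) ^ w.natAbs - 1)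
  refine ⟨u, ?_, ?_⟩
  · have h5 : 1 ≤ (p + 1) ^ w.natAbs := Nat.one_le_pow _ _ (by omega)
    rw [h1] at hu
    rw [ea, padicValInt]
    have h6 := congrArg (Nat.cast : ℕ → ℤ) hu
    rw [Nat.cast_sub h5] at h6
    push_cast at h6 ⊢
    exact h6
  · intro hd
    have hd' : p ∣ u := by exact_mod_cast hd
    obtain ⟨u', rfl⟩ := hd'
    have h7 : p ^ (padicValNat p ((p + 1) ^ w.natAbs - 1) + 1) ∣ (p + 1) ^ w.natAbs - 1 :=
      ⟨u', by rw [pow_succ, mul_assoc]; exact hu⟩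
    exact pow_succ_padicValNat_not_dvd h3 h7

section

variable {N : Type} [CommRing N] [LawRing N] (a : ℕ) [NUnit a N]

/-- the contraction -/
def kap (w : ℤ) (n : ℕ) : Cob N (n + 1) →+ Cob N n := (ka a w) • hA a n

theorem kap_apply (w : ℤ) (n : ℕ) (z : Cob N (n + 1)) : kap a w n z = (ka a w) • hA a n z := rfl

omit [LawRing N] in
theorem ka_smul_aux (w : ℤ) {n : ℕ} (z : Cob N n) :
    (ka a w) • (((uA a (Cob N n) ^ w : (Cob N n)ˣ) : Cob N n) * z - z) = (ea a w) • z := by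
  rw [zsmul_eq_mul, zsmul_eq_mul, ← ka_mul a w (Cob N n)]
  ring

/-- the homotopy identity in positive degrees -/
theorem kap_d_add_d_kap (hN : PtsInj N) {n : ℕ} {w : ℤ} {z : Cob N (n + 1)}
    (hz : Cob.IsWt w z) :
    kap a w (n + 1) (Cob.d (n + 1) z) + Cob.d n (kap a w n z) = (ea a w) • z := by
  rw [kap_apply, kap_apply, map_zsmul, ← smul_add, hA_d_add_d_hA a hN hz, ka_smul_aux]

/-- the homotopy identity in degree `0` -/
theorem kap_d_zero (hN : PtsInj N) {w : ℤ} {z : Cob N 0} (hz : Cob.IsWt w z) :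
    kap a w 0 (Cob.d 0 z) = (ea a w) • z := by
  rw [kap_apply, hA_d_zero a hN hz, ka_smul_aux]

theorem isWt_kap {n : ℕ} {v w : ℤ} {z : Cob N (n + 1)} (hz : Cob.IsWt w z) :
    Cob.IsWt w (kap a v n z) := (isWt_hA a hz).zsmul _

variable {M : Type} [CommRing M] [LawRing M] [NUnit a M]

theorem mapRing_kap {φ : N →+* M} (hφ : IsLawHom φ) (w : ℤ) {n : ℕ} (z : Cob N (n + 1)) :
    Cob.mapRing φ n (kap a w n z) = kap a w n (Cob.mapRing φ (n + 1) z) := by
  rw [kap_apply, kap_apply, map_zsmul, mapRing_hA a hφ]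

end

section tower

variable (a : ℕ) (N : ℕ → Type) [∀ j, CommRing (N j)] [∀ j, LawRing (N j)]
  (r : ∀ j, N (j + 1) →+* N j) (hr : ∀ j, IsLawHom (r j))

/-- the contraction on the limit of the tower of cobar complexes -/
def kapLim [∀ j, NUnit a (N j)] (w : ℤ) (s : ℕ) :
    (limCx (cobTow N r hr w)).C (s + 1) →+ (limCx (cobTow N r hr w)).C s :=
  AddMonoidHom.mk' (fun x => ⟨fun j => ⟨kap a w s (x.1 j).1, isWt_kap a (x.1 j).2⟩, fun j =>
    Subtype.ext (by
      change Cob.mapRing (r j) s (kap a w s (x.1 (j + 1)).1) = kap a w s (x.1 j).1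
      rw [mapRing_kap a (hr j)]
      congr 1
      exact congrArg Subtype.val (x.2 j))⟩)
    (fun x y => Subtype.ext (funext fun j => Subtype.ext
      (map_add (kap a w s) (x.1 j).1 (y.1 j).1)))

theorem kapLim_d_add [∀ j, NUnit a (N j)] (hN : ∀ j, PtsInj (N j)) (w : ℤ) (s : ℕ)
    (x : (limCx (cobTow N r hr w)).C (s + 1)) :
    kapLim a N r hr w (s + 1) ((limCx (cobTow N r hr w)).d (s + 1) x) +
      (limCx (cobTow N r hr w)).d s (kapLim a N r hr w s x) = (ea a w) • x :=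
  Subtype.ext (funext fun j => Subtype.ext (kap_d_add_d_kap a (hN j) (x.1 j).2))

theorem kapLim_d_zero [∀ j, NUnit a (N j)] (hN : ∀ j, PtsInj (N j)) (w : ℤ)
    (x : (limCx (cobTow N r hr w)).C 0) :
    kapLim a N r hr w 0 ((limCx (cobTow N r hr w)).d 0 x) = (ea a w) • x :=
  Subtype.ext (funext fun j => Subtype.ext (kap_d_zero a (hN j) (x.1 j).2))

/-- **The cohomology of the limit of the cobar complexes in weight `w` is killed by
`a ^ |w| - 1`.** -/
theorem ea_smul_mem_B [∀ j, NUnit a (N j)] (hN : ∀ j, PtsInj (N j)) (w : ℤ) (s : ℕ)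
    (x : (limCx (cobTow N r hr w)).C s) (hx : x ∈ (limCx (cobTow N r hr w)).Z s) :
    (ea a w) • x ∈ (limCx (cobTow N r hr w)).B s := by
  rw [Cx.mem_Z] at hx
  rcases s with _ | s
  · rw [Cx.mem_B_zero, ← kapLim_d_zero a N r hr hN w x, hx, map_zero]
  · rw [Cx.mem_B_succ]
    refine ⟨kapLim a N r hr w s x, ?_⟩
    rw [← kapLim_d_add a N r hr hN w s x, hx, map_zero, zero_add]

end tower

end Vale.Agent.P261.H36

end
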