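import Vale.Agent.P261.H36.HomotLim
import Vale.Agent.P261.M.NNm

/-! # P261 / H36 / HomotN : the towers `v_h⁻¹ Laz/((m) + I_h^j)`

In weight `w ≠ 0` the cohomology of the limit of the tower `towerNm m p h w` is killed by
`p ^ (1 + v_p(w))` (`p` odd, `h ≠ 0`). -/

noncomputable section

namespace Vale.Agent.P261.H36

open Vale.Agent.P217 Vale.Agent.P251.F Vale.Agent.P251.F.F3 Vale.Agent.P251.S LawRing
  Vale.Agent.P261.M

/-! ### division by an integer which is a unit -/

section divU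

theorem isUnit_int_map {u : ℤ} {B C : Type*} [CommRing B] [CommRing C] (φ : B →+* C)
    (h : IsUnit (u : B)) : IsUnit (u : C) := by
  have := h.map φ
  rwa [map_intCast] at this

/-- division by the integer `u` -/
def divU (u : ℤ) {B : Type*} [CommRing B] (h : IsUnit (u : B)) : B →+ B :=
  AddMonoidHom.mulLeft ((h.unit⁻¹ : Bˣ) : B)

theorem smul_divU (u : ℤ) {B : Type*} [CommRing B] (h : IsUnit (u : B)) (z : B) :
    u • divU u h z = z := by
  rw [zsmul_eq_mul]
  change (u : B) * (((h.unit⁻¹ : Bˣ) : B) * z) = z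
  rw [← mul_assoc, IsUnit.mul_val_inv, one_mul]

theorem zsmul_cancel {u : ℤ} {B : Type*} [CommRing B] (h : IsUnit (u : B)) {x y : B}
    (hxy : u • x = u • y) : x = y := by
  rw [zsmul_eq_mul, zsmul_eq_mul] at hxy
  exact h.mul_left_cancel hxy

theorem map_divU (u : ℤ) {B C : Type*} [CommRing B] [CommRing C] (h : IsUnit (u : B))
    (h' : IsUnit (u : C)) (φ : B →+ C) (z : B) : φ (divU u h z) = divU u h' (φ z) := by
  apply zsmul_cancel h'
  rw [smul_divU, ← map_zsmul, smul_divU]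

theorem isWt_divU {N : Type} [CommRing N] [LawRing N] (u : ℤ) {n : ℕ}
    (h : IsUnit (u : Cob N n)) {w : ℤ} {z : Cob N n} (hz : Cob.IsWt w z) :
    Cob.IsWt w (divU u h z) := by
  intro B _ c t
  apply zsmul_cancel (isUnit_int_map (Cob.ev c) h)
  rw [← map_zsmul, smul_divU, ← mul_smul_comm, ← map_zsmul, smul_divU]
  exact hz B c t

end divU

section

variable {N : Type} [CommRing N] [LawRing N] (a : ℕ) [NUnit a N] {u : ℤ} (hu : IsUnit (u : N))

/-- the contraction divided by `u` -/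
def kapU (w : ℤ) (n : ℕ) : Cob N (n + 1) →+ Cob N n :=
  (divU u (isUnit_int_map (MvPolynomial.C (R := N)) hu)).comp (kap a w n)

theorem smul_kapU (w : ℤ) (n : ℕ) (z : Cob N (n + 1)) :
    u • kapU a hu w n z = kap a w n z := smul_divU _ _ _

theorem isWt_kapU {n : ℕ} {v w : ℤ} {z : Cob N (n + 1)} (hz : Cob.IsWt w z) :
    Cob.IsWt w (kapU a hu v n z) := isWt_divU _ _ (isWt_kap a hz)

/-- the homotopy identity in positive degrees -/
theorem kapU_d_add_d_kapU (hN : PtsInj N) {e : ℤ} {n : ℕ} {w : ℤ} (he : ea a w = e * u)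
    {z : Cob N (n + 1)} (hz : Cob.IsWt w z) :
    kapU a hu w (n + 1) (Cob.d (n + 1) z) + Cob.d n (kapU a hu w n z) = e • z := by
  apply zsmul_cancel (isUnit_int_map (MvPolynomial.C (R := N)) hu)
  rw [smul_add, smul_kapU, ← map_zsmul, smul_kapU, kap_d_add_d_kap a hN hz, he, mul_comm,
    mul_smul]

/-- the homotopy identity in degree `0` -/
theorem kapU_d_zero (hN : PtsInj N) {e w : ℤ} (he : ea a w = e * u)
    {z : Cob N 0} (hz : Cob.IsWt w z) :
    kapU a hu w 0 (Cob.d 0 z) = e • z := by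
  apply zsmul_cancel (isUnit_int_map (MvPolynomial.C (R := N)) hu)
  rw [smul_kapU, kap_d_zero a hN hz, he, mul_comm, mul_smul]

variable {M : Type} [CommRing M] [LawRing M] [NUnit a M]

theorem mapRing_kapU {φ : N →+* M} (hφ : IsLawHom φ) (hu' : IsUnit (u : M)) (w : ℤ) {n : ℕ}
    (z : Cob N (n + 1)) :
    Cob.mapRing φ n (kapU a hu w n z) = kapU a hu' w n (Cob.mapRing φ (n + 1) z) := by
  apply zsmul_cancel (isUnit_int_map (MvPolynomial.C (R := M)) hu')
  rw [← map_zsmul, smul_kapU, smul_kapU, mapRing_kap a hφ]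

end

section tower

variable (a : ℕ) (N : ℕ → Type) [∀ j, CommRing (N j)] [∀ j, LawRing (N j)]
  (r : ∀ j, N (j + 1) →+* N j) (hr : ∀ j, IsLawHom (r j)) [∀ j, NUnit a (N j)]
  {u : ℤ} (hu : ∀ j, IsUnit (u : N j))

/-- the contraction on the limit of the tower of cobar complexes -/
def kapULim (w : ℤ) (s : ℕ) :
    (limCx (cobTow N r hr w)).C (s + 1) →+ (limCx (cobTow N r hr w)).C s :=
  AddMonoidHom.mk' (fun x => ⟨fun j => ⟨kapU a (hu j) w s (x.1 j).1,
      isWt_kapU a (hu j) (x.1 j).2⟩, fun j =>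
    Subtype.ext (by
      change Cob.mapRing (r j) s (kapU a (hu (j + 1)) w s (x.1 (j + 1)).1) =
        kapU a (hu j) w s (x.1 j).1
      rw [mapRing_kapU a (hu (j + 1)) (hr j) (hu j)]
      congr 1
      exact congrArg Subtype.val (x.2 j))⟩)
    (fun x y => Subtype.ext (funext fun j => Subtype.ext
      (map_add (kapU a (hu j) w s) (x.1 j).1 (y.1 j).1)))

include hu in
/-- The cohomology of the limit of the cobar complexes is killed by `e` if
`a ^ |w| - 1 = e u` with `u` invertible. -/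
theorem smul_mem_B_of_eq (hN : ∀ j, PtsInj (N j)) {e w : ℤ} (he : ea a w = e * u) (s : ℕ)
    (x : (limCx (cobTow N r hr w)).C s) (hx : x ∈ (limCx (cobTow N r hr w)).Z s) :
    e • x ∈ (limCx (cobTow N r hr w)).B s := by
  rw [Cx.mem_Z] at hx
  rcases s with _ | s
  · rw [Cx.mem_B_zero]
    have h1 : kapULim a N r hr hu w 0 ((limCx (cobTow N r hr w)).d 0 x) = e • x :=
      Subtype.ext (funext fun j => Subtype.ext (kapU_d_zero a (hu j) (hN j) he (x.1 j).2))
    rw [← h1, hx, map_zero]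
  · rw [Cx.mem_B_succ]
    refine ⟨kapULim a N r hr hu w s x, ?_⟩
    have h1 : kapULim a N r hr hu w (s + 1) ((limCx (cobTow N r hr w)).d (s + 1) x) +
        (limCx (cobTow N r hr w)).d s (kapULim a N r hr hu w s x) = e • x :=
      Subtype.ext (funext fun j => Subtype.ext
        (kapU_d_add_d_kapU a (hu j) (hN j) he (x.1 j).2))
    rw [← h1, hx, map_zero, zero_add]

end tower

/-! ### the towers of Laz -/

section NNm

variable (m p h : ℕ) [hp : Fact p.Prime]

omit hp in
theorem isNilpotent_NNm (hh : h ≠ 0) (j : ℕ) : IsNilpotent (p : NNm m p h j) := by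
  refine ⟨j, ?_⟩
  have h1 : (p : Laz) ∈ Laz.I p h := by
    have h2 : vv p 0 Laz.univ ∈ Ih p h Laz.univ := vv_mem_Ih (Nat.pos_of_ne_zero hh) _
    rwa [vv_zero] at h2
  have h2 : (p : Laz) ^ j ∈ IJm m p h j := Ideal.mem_sup_right (Ideal.pow_mem_pow h1 j)
  have h3 : ((p : Laz) ^ j : Laz) ∈ RingHom.ker ((algebraMap (QNm m p h j)
      (NNm m p h j)).comp (Ideal.Quotient.mk (IJm m p h j))) := by
    rw [RingHom.mem_ker, RingHom.comp_apply, Ideal.Quotient.eq_zero_iff_mem.2 h2, map_zero]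
  rw [RingHom.mem_ker, map_pow, map_natCast] at h3
  exact h3

/-- integers prime to `p` are invertible where `p` is nilpotent -/
theorem isUnit_int_of_isNilpotent {B : Type*} [CommRing B] (hB : IsNilpotent (p : B)) {u : ℤ}
    (hu : ¬ (p : ℤ) ∣ u) : IsUnit (u : B) := by
  have h1 : IsCoprime u (p : ℤ) :=
    ((Prime.coprime_iff_not_dvd (Nat.prime_iff_prime_int.1 hp.out)).2 hu).symm
  obtain ⟨x, y, hxy⟩ := h1
  have h2 : ((x : B)) * (u : B) = 1 - (y : B) * (p : B) := by
    have := congrArg (Int.cast : ℤ → B) hxy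
    push_cast at this
    rw [← this]
    ring
  have h3 : IsUnit ((x : B) * (u : B)) := by
    rw [h2]
    exact IsNilpotent.isUnit_one_sub ((Commute.all _ _).isNilpotent_mul_left hB)
  exact isUnit_of_mul_isUnit_right h3

theorem towerNm_eq (w : ℤ) : towerNm m p h w =
    cobTow (fun j => NNm m p h (j + 1)) (fun j => NNm.red m p h (Nat.le_succ (j + 1)))
      (fun j => isLawHom_NNm_red m p h _) w := rfl

/-- **The cohomology in weight `w ≠ 0` is killed by `p ^ (1 + v_p(w))`.** -/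
theorem pow_smul_mem_B (hp2 : p ≠ 2) (hh : h ≠ 0) {w : ℤ} (hw : w ≠ 0) (s : ℕ)
    (x : (limCx (towerNm m p h w)).C s) (hx : x ∈ (limCx (towerNm m p h w)).Z s) :
    ((p : ℤ) ^ (1 + padicValInt p w)) • x ∈ (limCx (towerNm m p h w)).B s := by
  obtain ⟨u, hu, hu'⟩ := ea_eq p hp2 hw
  have : ∀ j, NUnit (p + 1) (NNm m p h (j + 1)) := fun j =>
    NUnit.of_isNilpotent (isNilpotent_NNm m p h hh (j + 1))
  exact smul_mem_B_of_eq (p + 1) (fun j => NNm m p h (j + 1))
    (fun j => NNm.red m p h (Nat.le_succ (j + 1))) (fun j => isLawHom_NNm_red m p h _)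
    (fun j => isUnit_int_of_isNilpotent p (isNilpotent_NNm m p h hh (j + 1)) hu')
    (fun j => epi_NNm m p h (j + 1)) hu s x hx

end NNm

end Vale.Agent.P261.H36

end
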